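import Vale.Agent.P225.AE.Riemann

open MeasureTheory intervalIntegral Filter Topology

namespace Vale.Agent.P225.AE

theorem sum_pow_tendsto (n : ℕ) :
    Tendsto (fun X : ℕ => (∑ d ∈ Finset.range X, (d:ℝ) ^ n) / (X:ℝ) ^ (n + 1)) atTop
      (𝓝 (1 / (n + 1))) := by
  have hcd : ContDiff ℝ 1 (fun u : ℝ => u ^ n) := by fun_prop
  obtain ⟨L, hL0, hL⟩ := exists_lip hcd
  have hone : Tendsto (fun d : ℕ => ((d : ℕ) : ℝ) / d) atTop (𝓝 1) := by
    refine tendsto_const_nhds.congr' ?_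
    filter_upwards [eventually_gt_atTop 0] with d hd
    rw [div_self (by exact_mod_cast hd.ne')]
  have h := lim_sum (C := 0) hcd.continuous hL hL0
    (gd := fun d p => (p / d : ℝ) ^ n)
    (fun d hd p hp => by simp) le_rfl (n := fun d => d)
    (Eventually.of_forall fun d => le_rfl) hone
  have e1 : ∫ u in (0:ℝ)..1, u ^ n = 1 / (n + 1) := by
    rw [integral_pow]; simp
  rw [e1] at h
  refine h.congr fun d => ?_
  rcases Nat.eq_zero_or_pos d with hd | hd
  · subst hd; simp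
  · have hd0 : (0:ℝ) < d := by exact_mod_cast hd
    simp_rw [div_pow]
    rw [← Finset.sum_div, div_div, ← pow_succ]

theorem cesaro {a : ℕ → ℝ} {n : ℕ} {l : ℝ}
    (h : Tendsto (fun d : ℕ => a d / (d:ℝ) ^ n) atTop (𝓝 l)) :
    Tendsto (fun X : ℕ => (∑ d ∈ Finset.range X, a d) / (X:ℝ) ^ (n + 1)) atTop
      (𝓝 (l / (n + 1))) := by
  have hS := sum_pow_tendsto n
  have hb : (fun d : ℕ => a d - l * (d:ℝ) ^ n) =o[atTop] (fun d : ℕ => (d:ℝ) ^ n) := by
    rw [Asymptotics.isLittleO_iff_tendsto' (by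
      filter_upwards [eventually_gt_atTop 0] with d hd h0
      exact absurd h0 (pow_ne_zero n (by exact_mod_cast hd.ne')))]
    have := h.sub_const l
    rw [sub_self] at this
    refine this.congr' ?_
    filter_upwards [eventually_gt_atTop 0] with d hd
    have : (d:ℝ) ^ n ≠ 0 := pow_ne_zero n (by exact_mod_cast hd.ne')
    field_simp
  have hinf : Tendsto (fun X : ℕ => ∑ d ∈ Finset.range X, (d:ℝ) ^ n) atTop atTop := by
    have h1 : Tendsto (fun X : ℕ => (X:ℝ) ^ (n + 1)) atTop atTop :=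
      (tendsto_pow_atTop (Nat.succ_ne_zero n)).comp tendsto_natCast_atTop_atTop
    have h2 := Tendsto.pos_mul_atTop (by positivity : (0:ℝ) < 1 / (n + 1)) hS h1
    refine h2.congr' ?_
    filter_upwards [eventually_gt_atTop 0] with X hX
    have : (X:ℝ) ^ (n + 1) ≠ 0 := pow_ne_zero _ (by exact_mod_cast hX.ne')
    field_simp
  have h3 := hb.sum_range (fun d => by positivity) hinf
  have h4 := h3.tendsto_div_nhds_zero
  have h5 := h4.mul hS
  rw [zero_mul] at h5
  have h6 := h5.add (hS.const_mul l)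
  have e : (0:ℝ) + l * (1 / (n + 1)) = l / (n + 1) := by ring
  rw [e] at h6
  refine h6.congr' ?_
  filter_upwards [hinf.eventually_gt_atTop 0, eventually_gt_atTop 0] with X hX hX0
  have : (X:ℝ) ^ (n + 1) ≠ 0 := pow_ne_zero _ (by exact_mod_cast hX0.ne')
  rw [Finset.sum_sub_distrib, ← Finset.mul_sum]
  field_simp
  ring

/-- summing up to `⌊s k⌋` -/
theorem cesaro_floor {a : ℕ → ℝ} {n : ℕ} {l s : ℝ} (hs : 0 < s)
    (h : Tendsto (fun d : ℕ => a d / (d:ℝ) ^ n) atTop (𝓝 l)) :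
    Tendsto (fun k : ℕ => (∑ d ∈ Finset.Icc 2 ⌊s * k⌋₊, a d) / (k:ℝ) ^ (n + 1)) atTop
      (𝓝 (l / (n + 1) * s ^ (n + 1))) := by
  have hX : Tendsto (fun k : ℕ => (⌊s * k⌋₊ : ℝ) / k) atTop (𝓝 s) :=
    (tendsto_nat_floor_mul_div_atTop hs.le).comp tendsto_natCast_atTop_atTop
  have hk1 : Tendsto (fun k : ℕ => (1:ℝ) / k) atTop (𝓝 0) := tendsto_const_div_atTop_nhds_zero_nat 1
  have hX1 : Tendsto (fun k : ℕ => ((⌊s * k⌋₊ + 1 : ℕ) : ℝ) / k) atTop (𝓝 s) := by
    have := hX.add hk1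
    rw [add_zero] at this
    refine this.congr fun k => ?_
    push_cast
    ring
  have hinf : Tendsto (fun k : ℕ => ⌊s * k⌋₊ + 1) atTop atTop := by
    refine tendsto_atTop_mono (fun k => Nat.le_succ _) ?_
    exact tendsto_nat_floor_atTop.comp
      (Tendsto.const_mul_atTop hs tendsto_natCast_atTop_atTop)
  have h1 := (cesaro h).comp hinf
  have h2 := h1.mul (hX1.pow (n + 1))
  have h3 : Tendsto (fun k : ℕ => (a 0 + a 1) / (k:ℝ) ^ (n + 1)) atTop (𝓝 0) := by
    apply Tendsto.const_div_atTop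
    exact (tendsto_pow_atTop (Nat.succ_ne_zero n)).comp tendsto_natCast_atTop_atTop
  have h4 := h2.sub h3
  rw [sub_zero] at h4
  refine h4.congr' ?_
  have hge : ∀ᶠ k : ℕ in atTop, 1 ≤ ⌊s * k⌋₊ := by
    exact (tendsto_nat_floor_atTop.comp
      (Tendsto.const_mul_atTop hs tendsto_natCast_atTop_atTop)).eventually_ge_atTop 1
  filter_upwards [hge, eventually_gt_atTop 0] with k hk hk0
  have hk' : (k:ℝ) ≠ 0 := by exact_mod_cast hk0.ne'
  have hX' : ((⌊s * k⌋₊ + 1 : ℕ) : ℝ) ≠ 0 := by positivity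
  have e1 : ∑ d ∈ Finset.range (⌊s * k⌋₊ + 1), a d =
      a 0 + a 1 + ∑ d ∈ Finset.Icc 2 ⌊s * k⌋₊, a d := by
    have e2 : Finset.range (⌊s * k⌋₊ + 1) = insert 0 (insert 1 (Finset.Icc 2 ⌊s * k⌋₊)) := by
      ext d
      simp only [Finset.mem_range, Finset.mem_insert, Finset.mem_Icc]
      omega
    rw [e2, Finset.sum_insert (by simp), Finset.sum_insert (by simp)]
    ring
  simp only [Function.comp_apply]
  rw [e1, div_pow]
  field_simp
  ring

end Vale.Agent.P225.AE
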