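import Vale.Agent.P225.AE.Partition

open MeasureTheory intervalIntegral Set Filter Topology

namespace Vale.Agent.P225.AE

/-- The static data. -/
structure StaticData (r : ℕ) where
  x : ℝ
  h : ℝ
  J : ℕ
  t : ℕ → ℝ
  s : ℕ → ℝ
  hx : 0 < x
  hx1 : x < 1
  hh : 1 ≤ h
  strict : h + (r + 1) * x < (r + 1) + 1
  start : x ^ (2 * (r + 1) + 1) * h < 1
  t0 : t 0 = 0
  tn : ∀ j, 0 ≤ t j
  tm : ∀ j, t j ≤ t (j + 1)
  t1 : ∀ j ≤ J, t j < 1
  s0 : ∀ j ≤ J, 0 < s j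
  sm : ∀ j < J, s j ≤ s (j + 1)
  cond : ∀ j ≤ J, s j ^ 2 * (1 - (1 - 1 / h) * e r (t j)) < x
  count : F r 0 < ∑ j ∈ Finset.range J, s j ^ (2 * r + 3) * (F r (t j) - F r (t (j + 1))) +
      s J ^ (2 * r + 3) * F r (t J)

theorem calc_aux {η σ e' b b1 : ℝ} (hη : 0 < η) (hη2 : η ≤ 1 / 2) (hb : 4 * η ≤ b - b1)
    (he0 : 0 ≤ e') (he1 : e' ≤ 1) (hb0 : 0 ≤ b) (hb1 : b ≤ 1) (hσ : σ = (e' - b) / 2) :
    (1 + η * σ) ^ 2 * (1 - (1 - 1 / (1 + η)) * e') < 1 - b1 * η := by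
  have h1 : (1 - 1 / (1 + η)) = η / (1 + η) := by
    field_simp
    ring
  have h2 : η / (1 + η) = η - η ^ 2 / (1 + η) := by
    field_simp
    ring
  have h3 : η ^ 2 / (1 + η) ≤ η ^ 2 := div_le_self (sq_nonneg _) (by linarith)
  have h3' : 0 ≤ η ^ 2 / (1 + η) := by positivity
  have h4 : 1 - (1 - 1 / (1 + η)) * e' ≤ 1 - η * e' + η ^ 2 := by
    rw [h1, h2]
    nlinarith
  have hs1 : σ ≤ 1 / 2 := by rw [hσ]; linarith
  have hs2 : -(1 / 2) ≤ σ := by rw [hσ]; linarith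
  have h5 : (1 + η * σ) ^ 2 ≤ 1 + 2 * (η * σ) + η ^ 2 / 4 := by
    have : σ ^ 2 ≤ 1 / 4 := by nlinarith
    nlinarith [sq_nonneg η]
  have h6 : 0 ≤ 1 - η * e' + η ^ 2 := by nlinarith
  calc (1 + η * σ) ^ 2 * (1 - (1 - 1 / (1 + η)) * e')
      ≤ (1 + η * σ) ^ 2 * (1 - η * e' + η ^ 2) := mul_le_mul_of_nonneg_left h4 (sq_nonneg _)
    _ ≤ (1 + 2 * (η * σ) + η ^ 2 / 4) * (1 - η * e' + η ^ 2) := mul_le_mul_of_nonneg_right h5 h6
    _ = 1 + η * (2 * σ - e') + η ^ 2 * (5 / 4 - 2 * σ * e') + η ^ 3 * (2 * σ - e' / 4) +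
        η ^ 4 / 4 := by ring
    _ ≤ 1 + η * (2 * σ - e') + η ^ 2 * (9 / 4) + η ^ 3 + η ^ 4 / 4 := by
        have a1 : 5 / 4 - 2 * σ * e' ≤ 9 / 4 := by nlinarith
        have a2 : 2 * σ - e' / 4 ≤ 1 := by linarith
        have a3 : 0 ≤ η ^ 3 := by positivity
        have := mul_le_mul_of_nonneg_left a1 (sq_nonneg η)
        have := mul_le_mul_of_nonneg_left a2 a3
        linarith
    _ < 1 - b1 * η := by
        have a1 : η ^ 3 ≤ η ^ 2 / 2 := by nlinarith [sq_nonneg η]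
        have a2 : η ^ 4 ≤ η ^ 2 / 4 := by
          have : η ^ 2 ≤ 1 / 4 := by nlinarith
          nlinarith [sq_nonneg η]
        have a3 : 2 * σ - e' = -b := by rw [hσ]; ring
        rw [a3]
        nlinarith [sq_nonneg η, mul_pos hη hη]

theorem count_aux {r n J : ℕ} {t : ℕ → ℝ} {b η : ℝ} (ht0 : t 0 = 0)
    (hFd : ∀ j < J, 0 ≤ F r (t j) - F r (t (j + 1))) (hFJ : 0 ≤ F r (t J)) (hη0 : 0 < η)
    (hη2 : η ≤ 1 / 2) (hσb : ∀ j ≤ J, -(1 / 2) ≤ (e r (t j) - b) / 2) (hn : 0 < n)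
    (hLS : b * F r 0 < ∑ j ∈ Finset.range J, e r (t j) * (F r (t j) - F r (t (j + 1))) +
      e r (t J) * F r (t J)) :
    F r 0 < ∑ j ∈ Finset.range J, (1 + η * ((e r (t j) - b) / 2)) ^ n *
      (F r (t j) - F r (t (j + 1))) + (1 + η * ((e r (t J) - b) / 2)) ^ n * F r (t J) := by
  have hn0 : (0:ℝ) < n := by exact_mod_cast hn
  have htel : ∑ j ∈ Finset.range J, (F r (t j) - F r (t (j + 1))) = F r 0 - F r (t J) := by
    rw [Finset.sum_range_sub' (fun j => F r (t j)), ht0]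
  have hB : ∀ j ≤ J, 1 + n * (η * ((e r (t j) - b) / 2)) ≤ (1 + η * ((e r (t j) - b) / 2)) ^ n := by
    intro j hj
    have := hσb j hj
    exact one_add_mul_le_pow (by nlinarith) n
  have h7 : ∑ j ∈ Finset.range J, (1 + n * (η * ((e r (t j) - b) / 2))) *
      (F r (t j) - F r (t (j + 1))) ≤ ∑ j ∈ Finset.range J,
      (1 + η * ((e r (t j) - b) / 2)) ^ n * (F r (t j) - F r (t (j + 1))) := by
    refine Finset.sum_le_sum fun j hj => ?_
    have hj' := Finset.mem_range.1 hj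
    exact mul_le_mul_of_nonneg_right (hB j hj'.le) (hFd j hj')
  have h8 : (1 + n * (η * ((e r (t J) - b) / 2))) * F r (t J) ≤
      (1 + η * ((e r (t J) - b) / 2)) ^ n * F r (t J) :=
    mul_le_mul_of_nonneg_right (hB J le_rfl) hFJ
  have e1 : ∑ j ∈ Finset.range J, (1 + n * (η * ((e r (t j) - b) / 2))) *
      (F r (t j) - F r (t (j + 1))) = (1 - n * η / 2 * b) *
        ∑ j ∈ Finset.range J, (F r (t j) - F r (t (j + 1))) + n * η / 2 *
        ∑ j ∈ Finset.range J, e r (t j) * (F r (t j) - F r (t (j + 1))) := by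
    rw [Finset.mul_sum, Finset.mul_sum, ← Finset.sum_add_distrib]
    exact Finset.sum_congr rfl fun j _ => by ring
  rw [htel] at e1
  set S1 := ∑ j ∈ Finset.range J, e r (t j) * (F r (t j) - F r (t (j + 1)))
  have h6 : 0 < n * η / 2 * (S1 + e r (t J) * F r (t J) - b * F r 0) := by
    have : 0 < S1 + e r (t J) * F r (t J) - b * F r 0 := by linarith
    positivity
  have e2 : (1 - n * η / 2 * b) * (F r 0 - F r (t J)) + n * η / 2 * S1 +
      (1 + n * (η * ((e r (t J) - b) / 2))) * F r (t J) =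
      F r 0 + n * η / 2 * (S1 + e r (t J) * F r (t J) - b * F r 0) := by ring
  linarith

theorem nums {r : ℕ} {b1 η : ℝ} (hη0 : 0 < η) (hη2 : η ≤ 1 / 2) (hb1 : 0 < b1) (hb1' : b1 ≤ 1)
    (hb1r : 1 < (r + 1) * b1) :
    0 < 1 - b1 * η ∧ 1 - b1 * η < 1 ∧ (1 + η) + (r + 1) * (1 - b1 * η) < (r + 1) + 1 ∧
    (1 - b1 * η) ^ (2 * (r + 1) + 1) * (1 + η) < 1 := by
  have g0 : 0 < 1 - b1 * η := by nlinarith
  refine ⟨g0, by nlinarith, by nlinarith, ?_⟩
  have g1 : 1 - b1 * η ≤ Real.exp (-(b1 * η)) := by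
    have := Real.add_one_le_exp (-(b1 * η))
    linarith
  have g2 : 1 + η ≤ Real.exp η := by
    have := Real.add_one_le_exp η
    linarith
  have g3 : 0 < b1 * η := mul_pos hb1 hη0
  have g4 : η < (r + 1) * (b1 * η) := by nlinarith
  calc (1 - b1 * η) ^ (2 * (r + 1) + 1) * (1 + η)
      ≤ Real.exp (-(b1 * η)) ^ (2 * (r + 1) + 1) * Real.exp η :=
        mul_le_mul (pow_le_pow_left₀ g0.le g1 _) g2 (by linarith) (by positivity)
    _ = Real.exp (-(((2 * (r + 1) + 1 : ℕ) : ℝ) * (b1 * η)) + η) := by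
        rw [← Real.exp_nat_mul, ← Real.exp_add]
        congr 1
        ring
    _ < 1 := by
        rw [Real.exp_lt_one_iff]
        push_cast
        nlinarith

theorem s_pos {η u : ℝ} (hη0 : 0 < η) (hη2 : η ≤ 1 / 2) (hu : -(1 / 2) ≤ u) : 0 < 1 + η * u := by
  nlinarith

theorem s_mono {η u v : ℝ} (hη0 : 0 < η) (h : u ≤ v) : 1 + η * u ≤ 1 + η * v := by nlinarith

theorem exists_static {r : ℕ} (hr : 4 ≤ r) : Nonempty (StaticData r) := by
  obtain ⟨J, t, ht0, htn, htm, ht1, hsum⟩ := exists_partition hr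
  have hφ := F0_pos r
  set φ := F r 0 with hφdef
  set LS := ∑ j ∈ Finset.range J, e r (t j) * (F r (t j) - F r (t (j + 1))) +
      e r (t J) * F r (t J) with hLS
  have hr1 : (0:ℝ) < (r:ℝ) + 1 := by positivity
  have hr4 : (4:ℝ) ≤ r := by exact_mod_cast hr
  have hFd : ∀ j < J, 0 ≤ F r (t j) - F r (t (j + 1)) := fun j hj => by
    rw [F_sub]
    exact integral_nonneg (htm j) fun u hu => f_nonneg r ((htn j).trans hu.1)
      (hu.2.trans (ht1 _ hj).le)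
  have htel : ∑ j ∈ Finset.range J, (F r (t j) - F r (t (j + 1))) = φ - F r (t J) := by
    rw [Finset.sum_range_sub' (fun j => F r (t j)), ht0]
  have hLS1 : LS ≤ φ := by
    have h1 : ∑ j ∈ Finset.range J, e r (t j) * (F r (t j) - F r (t (j + 1))) ≤
        ∑ j ∈ Finset.range J, (F r (t j) - F r (t (j + 1))) :=
      Finset.sum_le_sum fun j hj => by
        have hj' := Finset.mem_range.1 hj
        have := mul_le_mul_of_nonneg_right (e_le_one r (htn j) (ht1 j hj'.le)) (hFd j hj')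
        linarith
    have h2 := mul_le_mul_of_nonneg_right (e_le_one r (htn J) (ht1 J le_rfl))
      (F_nonneg r (htn J) (ht1 J le_rfl).le)
    rw [hLS]
    linarith
  set b : ℝ := (1 / (r + 1) + LS / φ) / 2 with hb
  set b1 : ℝ := (1 / (r + 1) + b) / 2 with hb1
  have h1 : 1 / ((r:ℝ) + 1) < LS / φ := by
    rw [div_lt_div_iff₀ hr1 hφ]
    rw [div_lt_iff₀ hr1] at hsum
    linarith
  have h2 : LS / φ ≤ 1 := by rw [div_le_one hφ]; exact hLS1
  have h3 : 0 < 1 / ((r:ℝ) + 1) := by positivity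
  have hbb1 : b1 < b := by rw [hb1]; linarith
  have hb1r : 1 / ((r:ℝ) + 1) < b1 := by rw [hb1]; linarith
  have hb0 : 0 ≤ b := by rw [hb]; linarith
  have hble : b ≤ 1 := by rw [hb]; linarith
  have hbLS : b * φ < LS := by
    have : b < LS / φ := by rw [hb]; linarith
    rwa [lt_div_iff₀ hφ] at this
  set η : ℝ := min (1 / 2) ((b - b1) / 4) with hη
  have hη0 : 0 < η := lt_min (by norm_num) (by linarith)
  have hη2 : η ≤ 1 / 2 := min_le_left _ _
  have hη4 : 4 * η ≤ b - b1 := by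
    have := min_le_right (1 / 2) ((b - b1) / 4)
    linarith
  have hb1r' : 1 < (r + 1) * b1 := by
    rw [div_lt_iff₀ hr1] at hb1r
    linarith
  have hb1p : 0 < b1 := by linarith
  have hσb : ∀ j ≤ J, -(1 / 2) ≤ (e r (t j) - b) / 2 := fun j hj => by
    have := e_nonneg r (htn j) (ht1 j hj).le
    linarith
  have hcount := count_aux (r := r) (n := 2 * r + 3) ht0 hFd (F_nonneg r (htn J) (ht1 J le_rfl).le)
    hη0 hη2 hσb (by positivity) (by rw [← hφdef]; exact hbLS)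
  obtain ⟨n1, n2, n3, n4⟩ := nums (r := r) hη0 hη2 hb1p (by linarith) hb1r'
  exact ⟨⟨1 - b1 * η, 1 + η, J, t, fun j => 1 + η * ((e r (t j) - b) / 2), n1, n2, by linarith,
    n3, n4, ht0, htn, htm, ht1, fun j hj => s_pos hη0 hη2 (hσb j hj), fun j hj => s_mono hη0
      (by linarith [e_mono r (htn j) (htm j) (ht1 (j + 1) hj)]), fun j hj =>
    calc_aux hη0 hη2 hη4 (e_nonneg r (htn j) (ht1 j hj).le) (e_le_one r (htn j) (ht1 j hj))
      hb0 hble rfl, hcount⟩⟩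

end Vale.Agent.P225.AE
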