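import Vale.Agent.P225.AE.EmulSum
import Vale.Agent.P225.AE.Cesaro
import Vale.Agent.P225.AE.Static

open Filter Topology

namespace Vale.Agent.P225.AE

theorem ratio_tendsto (r : ℕ) {t : ℝ} (ht0 : 0 ≤ t) (ht : t < 1) :
    Tendsto (fun d : ℕ => (MM2 r t d : ℝ) / ((d:ℝ) ^ 2 * NN r t d)) atTop (𝓝 (e r t)) := by
  have hF := F_pos r ht0 ht
  have hC := Cc_pos r
  have h1 := (MM2_tendsto r ht0 ht).div (NN_tendsto r ht0 ht) (mul_pos hC hF).ne'
  have e1 : Cc r * G r t / (Cc r * F r t) = e r t := by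
    unfold e
    rw [mul_div_mul_left _ _ hC.ne']
  rw [e1] at h1
  refine h1.congr' ?_
  filter_upwards [eventually_gt_atTop 0] with d hd
  have hd0 : (d:ℝ) ≠ 0 := by exact_mod_cast hd.ne'
  have hN : (NN r t d : ℝ) ≠ 0 := by exact_mod_cast (NN_pos r t d).ne'
  simp only [Pi.div_apply]
  field_simp
  ring

theorem big_d {N M d k x y s a : ℝ} {m : ℝ} (hN : 0 < N) (h : d ^ 2 * N - a * M < y * (d ^ 2 * N))
    (hy : 0 ≤ y) (hd0 : 0 ≤ d) (hds : d ≤ s * k) (hm : 0 ≤ m) (hk : 0 ≤ k)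
    (hx : 0 < x) (hk1 : 2 * m * s ≤ (x - y * s ^ 2) * k) :
    (d * (d + 2 * m)) * N - a * M < x * (k * (k + 2 * m)) * N := by
  have h1 : d ^ 2 ≤ (s * k) ^ 2 := pow_le_pow_left₀ hd0 hds 2
  have h2 : y * d ^ 2 + 2 * m * d ≤ x * k ^ 2 := by
    have h3 : y * d ^ 2 ≤ y * (s * k) ^ 2 := mul_le_mul_of_nonneg_left h1 hy
    have h4 : 2 * m * d ≤ 2 * m * (s * k) := mul_le_mul_of_nonneg_left hds (by linarith)
    have h5 : 2 * m * s * k ≤ (x - y * s ^ 2) * k * k := mul_le_mul_of_nonneg_right hk1 hk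
    nlinarith
  have h6 : (y * d ^ 2 + 2 * m * d) * N ≤ (x * k ^ 2) * N := mul_le_mul_of_nonneg_right h2 hN.le
  have h7 : 0 ≤ x * k * (2 * m) * N := by positivity
  nlinarith

theorem small_d {N M d k x a d0 : ℝ} {m : ℝ} (hN : 0 < N) (hM : 0 ≤ M) (ha : 0 ≤ a)
    (hd0 : 0 ≤ d) (hdd : d ≤ d0) (hm : 0 ≤ m) (hk : 0 ≤ k) (hx : 0 < x)
    (hk1 : d0 * (d0 + 2 * m) < x * k ^ 2) :
    (d * (d + 2 * m)) * N - a * M < x * (k * (k + 2 * m)) * N := by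
  have h1 : d * (d + 2 * m) ≤ d0 * (d0 + 2 * m) :=
    mul_le_mul hdd (by linarith) (by positivity) (by linarith)
  have h2 : d * (d + 2 * m) < x * (k * (k + 2 * m)) := by
    have : 0 ≤ x * k * (2 * m) := by positivity
    nlinarith
  have h3 := mul_lt_mul_of_pos_right h2 hN
  have h4 : 0 ≤ a * M := mul_nonneg ha hM
  linarith

theorem cond_one (r : ℕ) {t s x h : ℝ} (ht0 : 0 ≤ t) (ht : t < 1) (hs : 0 < s) (hx : 0 < x)
    (hh : 1 ≤ h) (hc : s ^ 2 * (1 - (1 - 1 / h) * e r t) < x) :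
    ∀ᶠ k : ℕ in atTop, ∀ d : ℕ, 2 ≤ d → (d:ℝ) ≤ s * k →
      ((d : ℝ) * (d + 2 * ((r + 1 : ℕ) : ℝ))) * (NN r t d : ℝ) - (1 - 1 / h) * (MM2 r t d : ℝ) <
        x * (k * (k + 2 * ((r + 1 : ℕ) : ℝ))) * (NN r t d : ℝ) := by
  have hh0 : 0 < h := by linarith
  have ha0 : 0 ≤ 1 - 1 / h := by
    rw [sub_nonneg, div_le_one hh0]; exact hh
  have ha1 : 1 - 1 / h ≤ 1 := by
    have : 0 < 1 / h := by positivity
    linarith
  set a := 1 - 1 / h with ha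
  have he0 := e_nonneg r ht0 ht.le
  have he1 := e_le_one r ht0 ht
  have hae : 0 ≤ 1 - a * e r t := by nlinarith
  obtain ⟨y, hy1, hy2⟩ : ∃ y, 1 - a * e r t < y ∧ s ^ 2 * y < x := by
    have hs2 : 0 < s ^ 2 := by positivity
    have h1 : 1 - a * e r t < x / s ^ 2 := by
      rw [lt_div_iff₀ hs2]; linarith
    obtain ⟨y, h2, h3⟩ := exists_between h1
    refine ⟨y, h2, ?_⟩
    rw [lt_div_iff₀ hs2] at h3
    linarith
  have hy0 : 0 ≤ y := by linarith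
  have hlim : Tendsto (fun d : ℕ => 1 - a * ((MM2 r t d : ℝ) / ((d:ℝ) ^ 2 * NN r t d))) atTop
      (𝓝 (1 - a * e r t)) := ((ratio_tendsto r ht0 ht).const_mul a).const_sub 1
  obtain ⟨d0, hd0⟩ := eventually_atTop.1 (hlim.eventually_lt_const hy1)
  have hδ : 0 < x - y * s ^ 2 := by linarith
  have hk1 : ∀ᶠ k : ℕ in atTop, 2 * ((r + 1 : ℕ) : ℝ) * s ≤ (x - y * s ^ 2) * (k:ℝ) :=
    (Tendsto.const_mul_atTop hδ tendsto_natCast_atTop_atTop).eventually_ge_atTop _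
  have hk2 : ∀ᶠ k : ℕ in atTop, ((d0 : ℝ) * (d0 + 2 * ((r + 1 : ℕ) : ℝ))) < x * (k:ℝ) ^ 2 :=
    (Tendsto.const_mul_atTop hx ((tendsto_pow_atTop two_ne_zero).comp
      tendsto_natCast_atTop_atTop)).eventually_gt_atTop _
  filter_upwards [hk1, hk2] with k hk1 hk2 d hd hds
  have hN : (0:ℝ) < NN r t d := by exact_mod_cast NN_pos r t d
  have hdpos : (0:ℝ) < d := by exact_mod_cast (show 0 < d by omega)
  rcases le_total d0 d with hdd | hdd
  · have h1 := hd0 d hdd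
    refine big_d hN ?_ hy0 hdpos.le hds (Nat.cast_nonneg _) (Nat.cast_nonneg k) hx hk1
    have hdN : 0 < (d:ℝ) ^ 2 * NN r t d := by positivity
    have h2 := mul_lt_mul_of_pos_right h1 hdN
    have e1 : (1 - a * ((MM2 r t d : ℝ) / ((d:ℝ) ^ 2 * NN r t d))) * ((d:ℝ) ^ 2 * NN r t d) =
        (d:ℝ) ^ 2 * NN r t d - a * MM2 r t d := by
      have := hdN.ne'
      field_simp
    rw [e1] at h2
    exact h2
  · exact small_d hN (Nat.cast_nonneg _) ha0 hdpos.le (by exact_mod_cast hdd) (Nat.cast_nonneg _)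
      (Nat.cast_nonneg k) hx hk2

end Vale.Agent.P225.AE
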