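import Vale.Agent.P225.AE.Integral

open MeasureTheory intervalIntegral Set Filter Topology

namespace Vale.Agent.P225.AE

/-- `∫_0^1 u^j (1-u²)^r du` -/
noncomputable def M (j r : ℕ) : ℝ := ∫ u in (0:ℝ)..1, u ^ j * (1 - u ^ 2) ^ r

theorem int_m (j r : ℕ) (a b : ℝ) :
    IntervalIntegrable (fun u : ℝ => u ^ j * (1 - u ^ 2) ^ r) volume a b :=
  Continuous.intervalIntegrable (by fun_prop) a b

theorem M_zero (r : ℕ) : M 0 r = F r 0 := by simp [M, F]

theorem M_two (r : ℕ) : M 2 r = G r 0 := rfl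

theorem M_one (r : ℕ) : M 1 r = 1 / (2 * (r + 1)) := by
  have h1 : ∀ u ∈ uIcc (0:ℝ) 1, HasDerivAt (fun u : ℝ => (1 - u ^ 2) ^ (r + 1))
      (-(2 * (r + 1)) * (u ^ 1 * (1 - u ^ 2) ^ r)) u := by
    intro u _
    have h2 : HasDerivAt (fun u : ℝ => 1 - u ^ 2) (-(2 * u)) u := by
      simpa using ((hasDerivAt_pow 2 u).const_sub 1)
    refine (h2.pow (r + 1)).congr_deriv ?_
    simp only [Nat.cast_add, Nat.cast_one, Nat.add_sub_cancel]
    ring
  have h2 := integral_eq_sub_of_hasDerivAt h1 ((int_m 1 r 0 1).const_mul _)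
  rw [intervalIntegral.integral_const_mul] at h2
  have h4 : (∫ u in (0:ℝ)..1, u ^ 1 * (1 - u ^ 2) ^ r) = M 1 r := rfl
  rw [h4] at h2
  simp at h2
  have h5 : (0:ℝ) < r + 1 := by positivity
  field_simp
  linarith

/-- `j M_{j-1} = (j + 2r + 2) M_{j+1}` for `j ≥ 1` -/
theorem M_rec (j r : ℕ) : ((j:ℝ) + 1) * M j r = (j + 2 * r + 3) * M (j + 2) r := by
  have h1 : ∀ u ∈ uIcc (0:ℝ) 1, HasDerivAt (fun u : ℝ => u ^ (j + 1) * (1 - u ^ 2) ^ (r + 1))
      ((j + 1) * (u ^ j * (1 - u ^ 2) ^ r) - (j + 2 * r + 3) * (u ^ (j + 2) * (1 - u ^ 2) ^ r)) u := by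
    intro u _
    have h2 : HasDerivAt (fun u : ℝ => 1 - u ^ 2) (-(2 * u)) u := by
      simpa using ((hasDerivAt_pow 2 u).const_sub 1)
    have h3 := (hasDerivAt_pow (j + 1) u).mul (h2.pow (r + 1))
    refine h3.congr_deriv ?_
    simp only [Nat.cast_add, Nat.cast_one, Nat.add_sub_cancel, Pi.pow_apply]
    ring
  have h2 := integral_eq_sub_of_hasDerivAt h1
    (((int_m j r 0 1).const_mul _).sub ((int_m (j + 2) r 0 1).const_mul _))
  rw [intervalIntegral.integral_sub ((int_m j r 0 1).const_mul _)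
    ((int_m (j + 2) r 0 1).const_mul _), intervalIntegral.integral_const_mul,
    intervalIntegral.integral_const_mul] at h2
  have h4 : ∀ i, (∫ u in (0:ℝ)..1, u ^ i * (1 - u ^ 2) ^ r) = M i r := fun _ => rfl
  rw [h4, h4] at h2
  simp at h2
  linarith

theorem M_succ (j r : ℕ) : M j (r + 1) = M j r - M (j + 2) r := by
  unfold M
  rw [← intervalIntegral.integral_sub (int_m j r 0 1) (int_m (j + 2) r 0 1)]
  congr 1
  ext u
  ring

theorem F0_rec (r : ℕ) : F (r + 1) 0 = F r 0 * (2 * r + 2) / (2 * r + 3) := by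
  have h1 := M_rec 0 r
  have h2 := M_succ 0 r
  rw [M_zero] at h1 h2
  rw [M_zero] at h2
  have h3 : (0:ℝ) < 2 * r + 3 := by positivity
  simp only [Nat.cast_zero, zero_add, one_mul] at h1
  rw [h2]
  field_simp
  linarith

theorem F0_pos (r : ℕ) : 0 < F r 0 := F_pos r le_rfl one_pos

/-- closed form -/
theorem F0_eq (r : ℕ) : F r 0 = 4 ^ r * (r.factorial : ℝ) ^ 2 / ((2 * r + 1).factorial : ℝ) := by
  induction r with
  | zero => simp [F]
  | succ r ih =>
    rw [F0_rec, ih]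
    have h1 : ((2 * (r + 1) + 1).factorial : ℝ) = (2 * r + 3) * ((2 * r + 2) *
        ((2 * r + 1).factorial : ℝ)) := by
      have : 2 * (r + 1) + 1 = (2 * r + 1) + 1 + 1 := by ring
      rw [this, Nat.factorial_succ, Nat.factorial_succ]
      push_cast
      ring
    have h2 : (((r + 1).factorial : ℕ) : ℝ) = (r + 1) * (r.factorial : ℝ) := by
      rw [Nat.factorial_succ]; push_cast; ring
    rw [h1, h2]
    have h3 : (0:ℝ) < ((2 * r + 1).factorial : ℝ) := by positivity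
    have h4 : (0:ℝ) < 2 * r + 3 := by positivity
    have h5 : (0:ℝ) < 2 * r + 2 := by positivity
    field_simp
    ring

/-- `(r+1) F(0)²` is nonincreasing -/
theorem F0_sq_rec (r : ℕ) : ((r:ℝ) + 2) * F (r + 1) 0 ^ 2 ≤ (r + 1) * F r 0 ^ 2 := by
  rw [F0_rec]
  have h4 : (0:ℝ) < 2 * r + 3 := by positivity
  rw [div_pow, mul_pow, mul_div_assoc', div_le_iff₀ (by positivity)]
  have h5 : 0 ≤ F r 0 ^ 2 := sq_nonneg _
  have h6 : (0:ℝ) ≤ r := Nat.cast_nonneg r
  nlinarith [mul_nonneg h5 h6]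

theorem F0_sq_le {r : ℕ} (hr : 4 ≤ r) : ((r:ℝ) + 1) * F r 0 ^ 2 ≤ 5 * (128 / 315) ^ 2 := by
  induction r, hr using Nat.le_induction with
  | base =>
    rw [F0_eq]
    norm_num [Nat.factorial]
  | succ r hr ih =>
    refine le_trans ?_ ih
    have := F0_sq_rec r
    push_cast
    linarith

end Vale.Agent.P225.AE
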