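import Mathlib

open MeasureTheory intervalIntegral Set Filter Topology

namespace Vale.Agent.P225.AE

/-- Riemann sum with left end points -/
theorem riemann {g : ℝ → ℝ} {L : ℝ} (hg : Continuous g)
    (hL : ∀ u ∈ Icc (0:ℝ) 1, ∀ v ∈ Icc (0:ℝ) 1, |g u - g v| ≤ L * |u - v|) (hL0 : 0 ≤ L)
    {d n : ℕ} (hd : 0 < d) (hn : n ≤ d) :
    |(∑ p ∈ Finset.range n, g (p / d)) / d - ∫ u in (0:ℝ)..(n / d : ℝ), g u| ≤ L / d := by
  have hd0 : (0:ℝ) < d := by exact_mod_cast hd
  have h1 : ∫ u in (0:ℝ)..(n / d : ℝ), g u =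
      ∑ p ∈ Finset.range n, ∫ u in (p / d : ℝ)..((p + 1 : ℕ) / d : ℝ), g u := by
    have := intervalIntegral.sum_integral_adjacent_intervals (f := g) (μ := volume)
      (a := fun p : ℕ => (p / d : ℝ)) (n := n) (fun p _ => hg.intervalIntegrable _ _)
    simp only [Nat.cast_zero, zero_div] at this
    exact this.symm
  have h2 : ∀ p ∈ Finset.range n,
      |g (p / d) / d - ∫ u in (p / d : ℝ)..((p + 1 : ℕ) / d : ℝ), g u| ≤ L / d * (1 / d) := by
    intro p hp
    have hpn := Finset.mem_range.1 hp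
    have hp1 : ((p + 1 : ℕ) / d : ℝ) ≤ 1 := by
      rw [div_le_one hd0]
      exact_mod_cast (show p + 1 ≤ d by omega)
    have hp0 : (0:ℝ) ≤ p / d := by positivity
    have hpd : ((p + 1 : ℕ) / d : ℝ) - p / d = 1 / d := by
      push_cast
      ring
    have hle : (p / d : ℝ) ≤ ((p + 1 : ℕ) / d : ℝ) := by
      have : (0:ℝ) < 1 / d := by positivity
      linarith
    have e1 : g (p / d) / d = ∫ u in (p / d : ℝ)..((p + 1 : ℕ) / d : ℝ), g (p / d) := by
      rw [intervalIntegral.integral_const, smul_eq_mul, hpd]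
      ring
    rw [e1, ← intervalIntegral.integral_sub (by simp) (hg.intervalIntegrable _ _)]
    have e2 : L / d * (1 / d) = L / d * |((p + 1 : ℕ) / d : ℝ) - p / d| := by
      rw [hpd, abs_of_pos (by positivity)]
    rw [e2, ← Real.norm_eq_abs]
    apply intervalIntegral.norm_integral_le_of_norm_le_const
    intro u hu
    rw [uIoc_of_le hle] at hu
    rw [Real.norm_eq_abs]
    refine (hL _ ⟨hp0, hle.trans hp1⟩ _ ⟨hp0.trans hu.1.le, hu.2.trans hp1⟩).trans ?_
    rw [div_eq_mul_one_div L]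
    apply mul_le_mul_of_nonneg_left _ hL0
    rw [abs_sub_comm, abs_of_nonneg (by linarith [hu.1])]
    linarith [hu.2]
  rw [h1, Finset.sum_div, ← Finset.sum_sub_distrib]
  refine (Finset.abs_sum_le_sum_abs _ _).trans ((Finset.sum_le_sum h2).trans ?_)
  rw [Finset.sum_const, Finset.card_range, nsmul_eq_mul]
  have h3 : (n:ℝ) * (1 / d) ≤ 1 := by
    rw [mul_one_div, div_le_one hd0]
    exact_mod_cast hn
  calc (n:ℝ) * (L / d * (1 / d)) = L / d * (n * (1 / d)) := by ring
    _ ≤ L / d * 1 := mul_le_mul_of_nonneg_left h3 (by positivity)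
    _ = L / d := mul_one _

/-- limit of Riemann sums of approximate values -/
theorem lim_sum {g : ℝ → ℝ} {L C β : ℝ} (hg : Continuous g)
    (hL : ∀ u ∈ Icc (0:ℝ) 1, ∀ v ∈ Icc (0:ℝ) 1, |g u - g v| ≤ L * |u - v|) (hL0 : 0 ≤ L)
    {gd : ℕ → ℕ → ℝ} (hgd : ∀ d, 0 < d → ∀ p ≤ d, |gd d p - g (p / d)| ≤ C / d)
    (hC : 0 ≤ C) {n : ℕ → ℕ} (hn : ∀ᶠ d in atTop, n d ≤ d)
    (hβ : Tendsto (fun d => (n d : ℝ) / d) atTop (𝓝 β)) :
    Tendsto (fun d => (∑ p ∈ Finset.range (n d), gd d p) / d) atTop (𝓝 (∫ u in (0:ℝ)..β, g u)) := by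
  have hint : Tendsto (fun d => ∫ u in (0:ℝ)..((n d : ℝ) / d), g u) atTop
      (𝓝 (∫ u in (0:ℝ)..β, g u)) :=
    ((intervalIntegral.continuous_primitive (fun a b => hg.intervalIntegrable a b)
      0).continuousAt.tendsto).comp hβ
  have hzero : Tendsto (fun d : ℕ => (C + L) / (d:ℝ)) atTop (𝓝 0) :=
    tendsto_const_div_atTop_nhds_zero_nat _
  have hdiff : Tendsto (fun d => (∑ p ∈ Finset.range (n d), gd d p) / d -
      ∫ u in (0:ℝ)..((n d : ℝ) / d), g u) atTop (𝓝 0) := by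
    apply squeeze_zero_norm' _ hzero
    filter_upwards [hn, eventually_gt_atTop 0] with d hnd hd
    have hd0 : (0:ℝ) < d := by exact_mod_cast hd
    have h1 := riemann hg hL hL0 hd hnd
    have h2 : |(∑ p ∈ Finset.range (n d), gd d p) / d -
        (∑ p ∈ Finset.range (n d), g (p / d)) / d| ≤ C / d := by
      rw [← sub_div, ← Finset.sum_sub_distrib, abs_div, abs_of_pos hd0]
      apply div_le_div_of_nonneg_right _ hd0.le
      refine (Finset.abs_sum_le_sum_abs _ _).trans ?_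
      have h3 : ∀ p ∈ Finset.range (n d), |gd d p - g (p / d)| ≤ C / d := fun p hp =>
        hgd d hd p ((Finset.mem_range.1 hp).le.trans hnd)
      refine (Finset.sum_le_sum h3).trans ?_
      rw [Finset.sum_const, Finset.card_range, nsmul_eq_mul]
      have h4 : (n d : ℝ) / d ≤ 1 := by
        rw [div_le_one hd0]
        exact_mod_cast hnd
      calc (n d : ℝ) * (C / d) = C * (n d / d) := by ring
        _ ≤ C * 1 := mul_le_mul_of_nonneg_left h4 hC
        _ = C := mul_one _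
    rw [Real.norm_eq_abs]
    calc _ = |((∑ p ∈ Finset.range (n d), gd d p) / d -
        (∑ p ∈ Finset.range (n d), g (p / d)) / d) + ((∑ p ∈ Finset.range (n d), g (p / d)) / d -
          ∫ u in (0:ℝ)..((n d : ℝ) / d), g u)| := by ring_nf
      _ ≤ _ := abs_add_le _ _
      _ ≤ C / d + L / d := add_le_add h2 h1
      _ = (C + L) / d := by ring
  have := hdiff.add hint
  simp only [sub_add_cancel, zero_add] at this
  exact this

/-- a `C¹` function is Lipschitz on `[0,1]` -/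
theorem exists_lip {g : ℝ → ℝ} (hg : ContDiff ℝ 1 g) : ∃ L, 0 ≤ L ∧
    ∀ u ∈ Icc (0:ℝ) 1, ∀ v ∈ Icc (0:ℝ) 1, |g u - g v| ≤ L * |u - v| := by
  have hc : Continuous (deriv g) := hg.continuous_deriv le_rfl
  obtain ⟨L, hL⟩ := isCompact_Icc.exists_bound_of_continuousOn (s := Icc (0:ℝ) 1) hc.continuousOn
  refine ⟨max L 0, le_max_right _ _, fun u hu v hv => ?_⟩
  have h := Convex.norm_image_sub_le_of_norm_deriv_le (𝕜 := ℝ) (f := g) (s := Icc (0:ℝ) 1)
    (C := max L 0) (fun x _ => (hg.differentiable one_ne_zero).differentiableAt)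
    (fun x hx => (hL x hx).trans (le_max_left _ _)) (convex_Icc 0 1) hv hu
  simpa [Real.norm_eq_abs] using h

end Vale.Agent.P225.AE
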