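import Vale.Agent.P225.Bdl.B1
import Vale.Agent.P225.AE.Riemann
import Vale.Agent.P225.AE.Moments

/-!
# P225, all even dimensions: asymptotics of the multiplicities
-/

open MeasureTheory intervalIntegral Set Filter Topology

namespace Vale.Agent.P225.AE

/-- `r! * binom(p+r, r)` -/
theorem mul_b (r p : ℕ) : (r + 1) * ((r + 1 + p).choose (r + 1)) = (p + r + 1) * ((p + r).choose r) := by
  have h := Nat.add_one_mul_choose_eq (p + r) r
  have e : r + 1 + p = (p + r) + 1 := by omega
  rw [e, mul_comm (r + 1), ← h]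

theorem mul_b' (r p : ℕ) (hp : 1 ≤ p) :
    (r + 1) * ((r + 1 + (p - 1)).choose (r + 1)) = p * ((p + r).choose r) := by
  have h := Nat.choose_succ_right_eq (p + r) r
  have e : r + 1 + (p - 1) = p + r := by omega
  rw [e, mul_comm (r + 1), h, mul_comm]
  congr 1
  omega

theorem Dpq_add (m p q : ℕ) : B5.Dpq m p q +
    (if p = 0 ∨ q = 0 then 0 else (m + (p - 1)).choose m * (m + (q - 1)).choose m) =
    (m + p).choose m * (m + q).choose m := by
  unfold B5.Dpq
  apply Nat.sub_add_cancel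
  split_ifs with h
  · exact Nat.zero_le _
  · exact Nat.mul_le_mul (Nat.choose_le_choose m (by omega)) (Nat.choose_le_choose m (by omega))

/-- closed form of the multiplicities -/
theorem Dpq_closed (r p q : ℕ) : (r + 1) * B5.Dpq (r + 1) p q =
    (p + q + r + 1) * (((p + r).choose r) * ((q + r).choose r)) := by
  have h := Dpq_add (r + 1) p q
  have h1 := mul_b r p
  have h2 := mul_b r q
  set D := B5.Dpq (r + 1) p q
  set bp := (p + r).choose r
  set bq := (q + r).choose r
  set cp := (r + 1 + p).choose (r + 1)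
  set cq := (r + 1 + q).choose (r + 1)
  have key : (r + 1) ^ 2 * D + p * q * (bp * bq) = (p + r + 1) * (q + r + 1) * (bp * bq) := by
    split_ifs at h with h0
    · have h3 : p * q = 0 := by
        rcases h0 with h0 | h0 <;> simp [h0]
      rw [h3, zero_mul, add_zero]
      have h4 : D = cp * cq := by omega
      rw [h4]
      calc (r + 1) ^ 2 * (cp * cq) = ((r + 1) * cp) * ((r + 1) * cq) := by ring
        _ = _ := by rw [h1, h2]; ring
    · push Not at h0
      have h3 := mul_b' r p (Nat.one_le_iff_ne_zero.2 h0.1)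
      have h4 := mul_b' r q (Nat.one_le_iff_ne_zero.2 h0.2)
      set dp := (r + 1 + (p - 1)).choose (r + 1)
      set dq := (r + 1 + (q - 1)).choose (r + 1)
      have h5 : p * q * (bp * bq) = (r + 1) ^ 2 * (dp * dq) := by
        calc p * q * (bp * bq) = (p * bp) * (q * bq) := by ring
          _ = _ := by rw [← h3, ← h4]; ring
      rw [h5, ← mul_add, h]
      calc (r + 1) ^ 2 * (cp * cq) = ((r + 1) * cp) * ((r + 1) * cq) := by ring
        _ = _ := by rw [h1, h2]; ring
  have e : (p + r + 1) * (q + r + 1) * (bp * bq) =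
      (r + 1) * ((p + q + r + 1) * (bp * bq)) + p * q * (bp * bq) := by ring
  rw [e] at key
  have key2 : (r + 1) * ((r + 1) * D) = (r + 1) * ((p + q + r + 1) * (bp * bq)) := by
    have : (r + 1) ^ 2 * D = (r + 1) * ((p + q + r + 1) * (bp * bq)) := Nat.add_right_cancel key
    rw [← this]; ring
  exact Nat.eq_of_mul_eq_mul_left (Nat.succ_pos r) key2

theorem fact_mul_b (r p : ℕ) : r.factorial * ((p + r).choose r) = (p + 1).ascFactorial r := by
  rw [Nat.ascFactorial_eq_factorial_mul_choose]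

/-- `p ^ r ≤ r! binom(p+r,r) ≤ (p+r)^r` -/
theorem b_lower (r p : ℕ) : p ^ r ≤ r.factorial * ((p + r).choose r) := by
  rw [fact_mul_b]
  exact (Nat.pow_le_pow_left (Nat.le_succ p) r).trans (Nat.pow_succ_le_ascFactorial (p + 1) r)

theorem b_upper (r p : ℕ) : r.factorial * ((p + r).choose r) ≤ (p + r) ^ r := by
  rw [fact_mul_b]
  exact Nat.ascFactorial_le_pow_add p r

theorem pow_diff {r : ℕ} {v δ c : ℝ} (hv0 : 0 ≤ v) (hv1 : v ≤ 1) (hδ : 0 ≤ δ) (hδc : δ ≤ c) :
    (v + δ) ^ r - v ^ r ≤ r * (1 + c) ^ r * δ := by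
  have h := abs_pow_sub_pow_le (v + δ) v r
  have h1 : |(v + δ) ^ r - v ^ r| = (v + δ) ^ r - v ^ r :=
    abs_of_nonneg (sub_nonneg.2 (pow_le_pow_left₀ hv0 (by linarith) r))
  have h2 : |v + δ - v| = δ := by rw [add_sub_cancel_left, abs_of_nonneg hδ]
  have h3 : max |v + δ| |v| ≤ 1 + c := by
    rw [abs_of_nonneg (by linarith), abs_of_nonneg hv0]
    apply max_le <;> linarith
  rw [h1, h2] at h
  refine h.trans ?_
  have h4 : (0:ℝ) ≤ max |v + δ| |v| := le_trans (abs_nonneg _) (le_max_left _ _)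
  have h5 : max |v + δ| |v| ^ (r - 1) ≤ (1 + c) ^ r := by
    refine (pow_le_pow_left₀ h4 h3 _).trans ?_
    exact pow_le_pow_right₀ (by linarith) (Nat.sub_le r 1)
  calc δ * r * max |v + δ| |v| ^ (r - 1) ≤ δ * r * (1 + c) ^ r :=
        mul_le_mul_of_nonneg_left h5 (by positivity)
    _ = _ := by ring

/-- normalised `b` -/
noncomputable def bn (r d p : ℕ) : ℝ := (r.factorial * ((p + r).choose r) : ℕ) / (d:ℝ) ^ r

theorem bn_bounds (r : ℕ) {d p : ℕ} (hd : 0 < d) (hp : p ≤ d) :
    (p / d : ℝ) ^ r ≤ bn r d p ∧ bn r d p ≤ (p / d : ℝ) ^ r + r * (1 + r) ^ r * (r / d) := by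
  have hd0 : (0:ℝ) < d := by exact_mod_cast hd
  have hd1 : (1:ℝ) ≤ d := by exact_mod_cast hd
  constructor
  · rw [div_pow]
    unfold bn
    apply div_le_div_of_nonneg_right _ (by positivity)
    exact_mod_cast b_lower r p
  · have h1 : bn r d p ≤ (p / d + r / d : ℝ) ^ r := by
      rw [← add_div, div_pow]
      unfold bn
      apply div_le_div_of_nonneg_right _ (by positivity)
      exact_mod_cast b_upper r p
    have h2 := pow_diff (r := r) (v := (p / d : ℝ)) (δ := (r / d : ℝ)) (c := r) (by positivity)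
      (by rw [div_le_one hd0]; exact_mod_cast hp) (by positivity)
      (div_le_self (by positivity) hd1)
    linarith

theorem bn_abs (r : ℕ) {d p : ℕ} (hd : 0 < d) (hp : p ≤ d) :
    |bn r d p - (p / d : ℝ) ^ r| ≤ (r * (1 + r) ^ r * r) / d := by
  obtain ⟨h1, h2⟩ := bn_bounds r hd hp
  rw [abs_of_nonneg (by linarith)]
  have : (r * (1 + r) ^ r * (r / d) : ℝ) = (r * (1 + r) ^ r * r) / d := by ring
  linarith

end Vale.Agent.P225.AE
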