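import Vale.Agent.P225.AE.Count

open MeasureTheory intervalIntegral Set Filter Topology

namespace Vale.Agent.P225.AE

/-- `1/((r+1) r!²)` -/
noncomputable def kap (r : ℕ) : ℝ := 1 / ((r + 1) * (r.factorial : ℝ) ^ 2)

theorem kap_pos (r : ℕ) : 0 < kap r := by
  unfold kap
  have : (0:ℝ) < r.factorial := by exact_mod_cast r.factorial_pos
  positivity

theorem Dpq_real (r : ℕ) {d p : ℕ} (hd : 0 < d) (hp : p ≤ d) :
    ((B5.Dpq (r + 1) p (d - p) : ℕ) : ℝ) / (d:ℝ) ^ (2 * r + 1) =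
      kap r * (1 + (r + 1) / d) * (bn r d p * bn r d (d - p)) := by
  have h := Dpq_closed r p (d - p)
  have h' : ((r:ℝ) + 1) * (B5.Dpq (r + 1) p (d - p) : ℕ) =
      (d + r + 1) * ((((p + r).choose r : ℕ) : ℝ) * (((d - p + r).choose r : ℕ) : ℝ)) := by
    have e : p + (d - p) + r + 1 = d + r + 1 := by omega
    rw [e] at h
    exact_mod_cast h
  have hd0 : (0:ℝ) < d := by exact_mod_cast hd
  have hr0 : (0:ℝ) < (r:ℝ) + 1 := by positivity
  have hf : (0:ℝ) < r.factorial := by exact_mod_cast r.factorial_pos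
  have h2 : ((B5.Dpq (r + 1) p (d - p) : ℕ) : ℝ) =
      (d + r + 1) * ((((p + r).choose r : ℕ) : ℝ) * (((d - p + r).choose r : ℕ) : ℝ)) /
        (r + 1) := by
    rw [eq_div_iff hr0.ne', ← h']
    ring
  rw [h2]
  unfold kap bn
  push_cast
  field_simp
  ring

/-- constants -/
noncomputable def C1 (r : ℕ) : ℝ := r * (1 + r) ^ r * r

theorem C1_nonneg (r : ℕ) : 0 ≤ C1 r := by unfold C1; positivity

theorem bn_le (r : ℕ) {d p : ℕ} (hd : 0 < d) (hp : p ≤ d) : bn r d p ≤ 1 + C1 r := by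
  have h1 := bn_abs r hd hp
  have hd0 : (0:ℝ) < d := by exact_mod_cast hd
  have hd1 : (1:ℝ) ≤ d := by exact_mod_cast hd
  have h2 : (p / d : ℝ) ^ r ≤ 1 := pow_le_one₀ (by positivity)
    (by rw [div_le_one hd0]; exact_mod_cast hp)
  have h3 : C1 r / d ≤ C1 r := div_le_self (C1_nonneg r) hd1
  have h4 := (abs_le.1 h1).2
  unfold C1 at *
  linarith

theorem bn_nonneg (r d p : ℕ) : 0 ≤ bn r d p := by unfold bn; positivity

theorem bn_mul_abs (r : ℕ) {d p : ℕ} (hd : 0 < d) (hp : p ≤ d) :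
    |bn r d p * bn r d (d - p) - ((p / d : ℝ) * (1 - p / d)) ^ r| ≤
      (C1 r * (1 + C1 r) + C1 r) / d := by
  have hd0 : (0:ℝ) < d := by exact_mod_cast hd
  have h1 := bn_abs r hd hp
  have h2 := bn_abs r hd (Nat.sub_le d p)
  have h3 := bn_le r hd (Nat.sub_le d p)
  have e1 : ((d - p : ℕ) / d : ℝ) = 1 - p / d := by
    rw [Nat.cast_sub hp, sub_div, div_self hd0.ne']
  rw [e1] at h2
  have hv : (p / d : ℝ) ≤ 1 := by rw [div_le_one hd0]; exact_mod_cast hp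
  have h4 : |(p / d : ℝ) ^ r| ≤ 1 := by
    rw [abs_of_nonneg (by positivity)]
    exact pow_le_one₀ (by positivity) hv
  have h5 := bn_nonneg r d (d - p)
  have e2 : bn r d p * bn r d (d - p) - ((p / d : ℝ) * (1 - p / d)) ^ r =
      (bn r d p - (p / d : ℝ) ^ r) * bn r d (d - p) +
        (p / d : ℝ) ^ r * (bn r d (d - p) - (1 - p / d) ^ r) := by
    rw [mul_pow]; ring
  rw [e2]
  refine (abs_add_le _ _).trans ?_
  rw [abs_mul, abs_mul, abs_of_nonneg h5]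
  have h6 : |bn r d p - (p / d : ℝ) ^ r| * bn r d (d - p) ≤ C1 r / d * (1 + C1 r) :=
    mul_le_mul h1 h3 h5 (div_nonneg (C1_nonneg r) hd0.le)
  have h7 : |(p / d : ℝ) ^ r| * |bn r d (d - p) - (1 - p / d) ^ r| ≤ 1 * (C1 r / d) :=
    mul_le_mul h4 h2 (abs_nonneg _) zero_le_one
  calc _ ≤ C1 r / d * (1 + C1 r) + 1 * (C1 r / d) := add_le_add h6 h7
    _ = _ := by ring

/-- constants -/
noncomputable def C2 (r : ℕ) : ℝ :=
  kap r * ((C1 r * (1 + C1 r) + C1 r) + (r + 1) * ((1 + C1 r) * (1 + C1 r)))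

theorem C2_nonneg (r : ℕ) : 0 ≤ C2 r := by
  have h1 := C1_nonneg r
  have h2 := (kap_pos r).le
  unfold C2
  positivity

theorem Dpq_abs (r : ℕ) {d p : ℕ} (hd : 0 < d) (hp : p ≤ d) :
    |((B5.Dpq (r + 1) p (d - p) : ℕ) : ℝ) / (d:ℝ) ^ (2 * r + 1) -
      kap r * ((p / d : ℝ) * (1 - p / d)) ^ r| ≤ C2 r / d := by
  have hd0 : (0:ℝ) < d := by exact_mod_cast hd
  rw [Dpq_real r hd hp]
  have h1 := bn_mul_abs r hd hp
  have h2 := bn_le r hd hp
  have h3 := bn_le r hd (Nat.sub_le d p)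
  have h4 := bn_nonneg r d p
  have h5 := bn_nonneg r d (d - p)
  have hC := C1_nonneg r
  have h6 : bn r d p * bn r d (d - p) ≤ (1 + C1 r) * (1 + C1 r) :=
    mul_le_mul h2 h3 h5 (by linarith)
  have hk := kap_pos r
  set P := bn r d p * bn r d (d - p) with hP
  have hP0 : 0 ≤ P := mul_nonneg h4 h5
  set V := ((p / d : ℝ) * (1 - p / d)) ^ r
  have e1 : kap r * (1 + (r + 1) / d) * P - kap r * V = kap r * ((P - V) + (r + 1) / d * P) := by
    ring
  rw [e1, abs_mul, abs_of_pos hk]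
  have h7 : |(P - V) + (r + 1) / d * P| ≤
      (C1 r * (1 + C1 r) + C1 r) / d + (r + 1) / d * ((1 + C1 r) * (1 + C1 r)) := by
    refine (abs_add_le _ _).trans (add_le_add h1 ?_)
    rw [abs_of_nonneg (by positivity)]
    exact mul_le_mul_of_nonneg_left h6 (by positivity)
  calc kap r * |(P - V) + (r + 1) / d * P| ≤ kap r *
      ((C1 r * (1 + C1 r) + C1 r) / d + (r + 1) / d * ((1 + C1 r) * (1 + C1 r))) :=
        mul_le_mul_of_nonneg_left h7 hk.le
    _ = C2 r / d := by unfold C2; ring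

/-- number of thresholds: `max 1 ⌊(1-t)d/2⌋` -/
noncomputable def nt (t : ℝ) (d : ℕ) : ℕ := max 1 ⌊(1 - t) / 2 * d⌋₊

theorem nt_pos (t : ℝ) (d : ℕ) : 1 ≤ nt t d := le_max_left _ _

theorem two_nt_le {t : ℝ} (ht : 0 ≤ t) {d : ℕ} (hd : 2 ≤ d) : 2 * nt t d ≤ d := by
  unfold nt
  have h : 2 * ⌊(1 - t) / 2 * d⌋₊ ≤ d := by
    by_cases h1 : 0 ≤ (1 - t) / 2 * d
    · have h2 := Nat.floor_le h1
      have h3 : (2 * ⌊(1 - t) / 2 * d⌋₊ : ℝ) ≤ d := by
        have h4 : (1 - t) / 2 * d ≤ 1 / 2 * d := by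
          apply mul_le_mul_of_nonneg_right _ (Nat.cast_nonneg d)
          linarith
        linarith
      exact_mod_cast h3
    · rw [Nat.floor_of_nonpos (by linarith)]
      omega
  rcases le_total 1 ⌊(1 - t) / 2 * d⌋₊ with h1 | h1
  · rw [max_eq_right h1]; exact h
  · rw [max_eq_left h1]; omega

theorem nt_tendsto {t : ℝ} (ht : t < 1) :
    Tendsto (fun d : ℕ => (nt t d : ℝ) / d) atTop (𝓝 ((1 - t) / 2)) := by
  have hpos : 0 < (1 - t) / 2 := by linarith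
  have h1 : Tendsto (fun d : ℕ => (⌊(1 - t) / 2 * (d:ℝ)⌋₊ : ℝ) / d) atTop (𝓝 ((1 - t) / 2)) :=
    (tendsto_nat_floor_mul_div_atTop hpos.le).comp tendsto_natCast_atTop_atTop
  refine h1.congr' ?_
  have h2 : ∀ᶠ d : ℕ in atTop, 1 ≤ (1 - t) / 2 * (d:ℝ) :=
    (Tendsto.const_mul_atTop hpos tendsto_natCast_atTop_atTop).eventually_ge_atTop 1
  filter_upwards [h2] with d hd
  unfold nt
  rw [max_eq_right ((Nat.one_le_floor_iff _).2 hd)]

end Vale.Agent.P225.AE
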