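import Vale.Agent.P225.AE.Count2

open MeasureTheory intervalIntegral Set Filter Topology

namespace Vale.Agent.P225.AE

/-- number of states in degree `d` with threshold `t` -/
noncomputable def NN (r : ℕ) (t : ℝ) (d : ℕ) : ℕ :=
  2 * ∑ p ∈ Finset.range (nt t d), B5.Dpq (r + 1) p (d - p)

/-- second moment -/
noncomputable def MM2 (r : ℕ) (t : ℝ) (d : ℕ) : ℕ :=
  2 * ∑ p ∈ Finset.range (nt t d), (d - 2 * p) ^ 2 * B5.Dpq (r + 1) p (d - p)

/-- leading constant -/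
noncomputable def Cc (r : ℕ) : ℝ := kap r / 4 ^ r

theorem Cc_pos (r : ℕ) : 0 < Cc r := div_pos (kap_pos r) (by positivity)

theorem int_N (r : ℕ) (t : ℝ) :
    ∫ u in (0:ℝ)..((1 - t) / 2), 2 * (kap r * (u * (1 - u)) ^ r) = Cc r * F r t := by
  have h := intervalIntegral.integral_comp_sub_mul (a := (0:ℝ)) (b := (1 - t) / 2)
    (fun u : ℝ => (1 - u ^ 2) ^ r) (c := 2) two_ne_zero 1
  have e1 : (1:ℝ) - 2 * ((1 - t) / 2) = t := by ring
  have e2 : (1:ℝ) - 2 * 0 = 1 := by ring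
  rw [e1, e2, smul_eq_mul] at h
  unfold F Cc
  have e3 : ∀ u : ℝ, 2 * (kap r * (u * (1 - u)) ^ r) =
      (2 * (kap r / 4 ^ r)) * (1 - (1 - 2 * u) ^ 2) ^ r := by
    intro u
    have : (1 - (1 - 2 * u) ^ 2) = 4 * (u * (1 - u)) := by ring
    rw [this, mul_pow 4 (u * (1 - u)) r]
    have h4 : (4:ℝ) ^ r ≠ 0 := by positivity
    generalize (u * (1 - u)) ^ r = y
    field_simp
  simp_rw [e3]
  rw [intervalIntegral.integral_const_mul, h]
  ring

theorem int_M (r : ℕ) (t : ℝ) :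
    ∫ u in (0:ℝ)..((1 - t) / 2), 2 * ((1 - 2 * u) ^ 2 * (kap r * (u * (1 - u)) ^ r)) =
      Cc r * G r t := by
  have h := intervalIntegral.integral_comp_sub_mul (a := (0:ℝ)) (b := (1 - t) / 2)
    (fun u : ℝ => u ^ 2 * (1 - u ^ 2) ^ r) (c := 2) two_ne_zero 1
  have e1 : (1:ℝ) - 2 * ((1 - t) / 2) = t := by ring
  have e2 : (1:ℝ) - 2 * 0 = 1 := by ring
  rw [e1, e2, smul_eq_mul] at h
  unfold G Cc
  have e3 : ∀ u : ℝ, 2 * ((1 - 2 * u) ^ 2 * (kap r * (u * (1 - u)) ^ r)) =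
      (2 * (kap r / 4 ^ r)) * ((1 - 2 * u) ^ 2 * (1 - (1 - 2 * u) ^ 2) ^ r) := by
    intro u
    have : (1 - (1 - 2 * u) ^ 2) = 4 * (u * (1 - u)) := by ring
    rw [this, mul_pow 4 (u * (1 - u)) r]
    have h4 : (4:ℝ) ^ r ≠ 0 := by positivity
    generalize (u * (1 - u)) ^ r = y
    field_simp
  simp_rw [e3]
  rw [intervalIntegral.integral_const_mul, h]
  ring

theorem nt_le_eventually {t : ℝ} (ht : 0 ≤ t) : ∀ᶠ d : ℕ in atTop, nt t d ≤ d := by
  filter_upwards [eventually_ge_atTop 2] with d hd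
  have := two_nt_le ht hd
  omega

theorem NN_tendsto (r : ℕ) {t : ℝ} (ht0 : 0 ≤ t) (ht : t < 1) :
    Tendsto (fun d : ℕ => (NN r t d : ℝ) / (d:ℝ) ^ (2 * r + 2)) atTop (𝓝 (Cc r * F r t)) := by
  have hcd : ContDiff ℝ 1 (fun u : ℝ => 2 * (kap r * (u * (1 - u)) ^ r)) := by fun_prop
  obtain ⟨L, hL0, hL⟩ := exists_lip hcd
  have h := lim_sum (C := 2 * C2 r) hcd.continuous hL hL0
    (gd := fun d p => 2 * (((B5.Dpq (r + 1) p (d - p) : ℕ) : ℝ) / (d:ℝ) ^ (2 * r + 1)))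
    (fun d hd p hp => by
      rw [← mul_sub, abs_mul, abs_two, mul_div_assoc]
      exact mul_le_mul_of_nonneg_left (Dpq_abs r hd hp) two_pos.le)
    (by have := C2_nonneg r; positivity) (nt_le_eventually ht0) (nt_tendsto ht)
  rw [int_N] at h
  refine h.congr fun d => ?_
  rw [← Finset.mul_sum, ← Finset.sum_div]
  unfold NN
  push_cast
  rcases Nat.eq_zero_or_pos d with hd | hd
  · subst hd; simp
  · have hd0 : (0:ℝ) < d := by exact_mod_cast hd
    field_simp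
    ring

theorem MM2_tendsto (r : ℕ) {t : ℝ} (ht0 : 0 ≤ t) (ht : t < 1) :
    Tendsto (fun d : ℕ => (MM2 r t d : ℝ) / (d:ℝ) ^ (2 * r + 4)) atTop (𝓝 (Cc r * G r t)) := by
  have hcd : ContDiff ℝ 1 (fun u : ℝ => 2 * ((1 - 2 * u) ^ 2 * (kap r * (u * (1 - u)) ^ r))) := by
    fun_prop
  obtain ⟨L, hL0, hL⟩ := exists_lip hcd
  have h := lim_sum (C := 2 * C2 r) hcd.continuous hL hL0
    (gd := fun d p => 2 * ((1 - 2 * (p / d : ℝ)) ^ 2 *
      (((B5.Dpq (r + 1) p (d - p) : ℕ) : ℝ) / (d:ℝ) ^ (2 * r + 1))))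
    (fun d hd p hp => by
      have hd0 : (0:ℝ) < d := by exact_mod_cast hd
      have hv : (p / d : ℝ) ≤ 1 := by rw [div_le_one hd0]; exact_mod_cast hp
      have hv0 : (0:ℝ) ≤ p / d := by positivity
      rw [← mul_sub, ← mul_sub, abs_mul, abs_two, mul_div_assoc, abs_mul]
      refine mul_le_mul_of_nonneg_left ?_ two_pos.le
      have h1 := Dpq_abs r hd hp
      have h2 : |(1 - 2 * (p / d : ℝ)) ^ 2| ≤ 1 := by
        rw [abs_of_nonneg (sq_nonneg _)]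
        nlinarith
      calc _ ≤ 1 * (C2 r / d) := mul_le_mul h2 h1 (abs_nonneg _) zero_le_one
        _ = _ := one_mul _)
    (by have := C2_nonneg r; positivity) (nt_le_eventually ht0) (nt_tendsto ht)
  rw [int_M] at h
  refine h.congr' ?_
  filter_upwards [eventually_ge_atTop 2] with d hd
  have hd0 : (0:ℝ) < d := by exact_mod_cast (show 0 < d by omega)
  have hnt := two_nt_le ht0 hd
  have e : ∀ p ∈ Finset.range (nt t d), 2 * ((1 - 2 * (p / d : ℝ)) ^ 2 *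
      (((B5.Dpq (r + 1) p (d - p) : ℕ) : ℝ) / (d:ℝ) ^ (2 * r + 1))) =
      2 * ((((d - 2 * p) ^ 2 * B5.Dpq (r + 1) p (d - p) : ℕ)) : ℝ) / (d:ℝ) ^ (2 * r + 3) := by
    intro p hp
    have hp' := Finset.mem_range.1 hp
    rw [Nat.cast_mul, Nat.cast_pow, Nat.cast_sub (by omega)]
    push_cast
    field_simp
    ring
  rw [Finset.sum_congr rfl e, ← Finset.sum_div, ← Finset.mul_sum]
  unfold MM2
  push_cast
  field_simp
  ring

end Vale.Agent.P225.AE
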