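import Vale.Agent.P225.AE.Total

open Filter Topology

namespace Vale.Agent.P225.AE

/-- the Euclidean dimension `h_k(ℝ^(2m+2))`, `m = r+1` -/
def hE (r k : ℕ) : ℕ := (2 * (r + 1) + 1 + k).choose k + (2 * (r + 1) + k).choose (k - 1)

theorem hE_le (r : ℕ) {k : ℕ} (hk : 1 ≤ k) :
    (hE r k : ℝ) ≤ 2 / ((2 * r + 3).factorial : ℝ) * ((k:ℝ) + (2 * r + 3)) ^ (2 * r + 3) := by
  have h1 : (2 * (r + 1) + 1 + k).choose k = (2 * (r + 1) + 1 + k).choose (2 * r + 3) := by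
    have e : 2 * (r + 1) + 1 + k = (2 * r + 3) + k := by omega
    rw [e, Nat.choose_symm_add]
  have h2 : (2 * (r + 1) + k).choose (k - 1) = (2 * (r + 1) + k).choose (2 * r + 3) := by
    have e : 2 * (r + 1) + k = (2 * r + 3) + (k - 1) := by omega
    rw [e, Nat.choose_symm_add]
  have h3 : (2 * (r + 1) + k).choose (2 * r + 3) ≤ (2 * (r + 1) + 1 + k).choose (2 * r + 3) :=
    Nat.choose_le_choose _ (by omega)
  have h4 : (((2 * (r + 1) + 1 + k).choose (2 * r + 3) : ℕ) : ℝ) ≤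
      ((k:ℝ) + (2 * r + 3)) ^ (2 * r + 3) / ((2 * r + 3).factorial : ℝ) := by
    have h := Nat.choose_le_pow_div (α := ℝ) (2 * r + 3) (2 * (r + 1) + 1 + k)
    have e : ((2 * (r + 1) + 1 + k : ℕ) : ℝ) = (k:ℝ) + (2 * r + 3) := by push_cast; ring
    rw [e] at h
    exact h
  have h5 : (((2 * (r + 1) + k).choose (2 * r + 3) : ℕ) : ℝ) ≤
      (((2 * (r + 1) + 1 + k).choose (2 * r + 3) : ℕ) : ℝ) := by exact_mod_cast h3
  unfold hE
  rw [h1, h2]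
  push_cast
  calc _ ≤ ((k:ℝ) + (2 * r + 3)) ^ (2 * r + 3) / ((2 * r + 3).factorial : ℝ) +
      ((k:ℝ) + (2 * r + 3)) ^ (2 * r + 3) / ((2 * r + 3).factorial : ℝ) :=
        add_le_add h4 (h5.trans h4)
    _ = _ := by ring

theorem hE_upper_tendsto (r : ℕ) :
    Tendsto (fun k : ℕ => 2 / ((2 * r + 3).factorial : ℝ) * ((k:ℝ) + (2 * r + 3)) ^ (2 * r + 3) /
      (k:ℝ) ^ (2 * r + 3)) atTop (𝓝 (2 / ((2 * r + 3).factorial : ℝ))) := by
  have h1 : Tendsto (fun k : ℕ => (1:ℝ) + (2 * r + 3) / (k:ℝ)) atTop (𝓝 1) := by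
    have := (tendsto_const_div_atTop_nhds_zero_nat ((2:ℝ) * r + 3)).const_add 1
    rwa [add_zero] at this
  have h2 := (h1.pow (2 * r + 3)).const_mul (2 / ((2 * r + 3).factorial : ℝ))
  rw [one_pow, mul_one] at h2
  refine h2.congr' ?_
  filter_upwards [eventually_gt_atTop 0] with k hk
  have hk0 : (k:ℝ) ≠ 0 := by exact_mod_cast hk.ne'
  rw [mul_div_assoc, ← div_pow]
  congr 2
  field_simp

theorem Cc_mul_F0 (r : ℕ) : Cc r / (2 * r + 3) * F r 0 = 2 / ((2 * r + 3).factorial : ℝ) := by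
  rw [F0_eq]
  unfold Cc kap
  have e1 : (2 * r + 3).factorial = (2 * r + 3) * ((2 * r + 2) * (2 * r + 1).factorial) := by
    rw [show 2 * r + 3 = (2 * r + 1 + 1) + 1 by ring, Nat.factorial_succ, Nat.factorial_succ]
  rw [e1]
  have h1 : (0:ℝ) < r.factorial := by exact_mod_cast r.factorial_pos
  have h2 : (0:ℝ) < (2 * r + 1).factorial := by exact_mod_cast (2 * r + 1).factorial_pos
  push_cast
  field_simp

/-- more states than the Euclidean dimension -/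
theorem total_gt {r : ℕ} (S : StaticData r) : ∃ c : ℝ, 0 < c ∧ ∀ᶠ k : ℕ in atTop,
    (1 + c) * (hE r k : ℝ) < ∑ d ∈ Finset.Icc 2 (Xk S k S.J),
      (NN r (S.t (jd S.J (Xk S k) d)) d : ℝ) := by
  have hA := total_tendsto S
  have hB := hE_upper_tendsto r
  set A := Cc r / (2 * r + 3) * cnt S with hAdef
  set B := 2 / ((2 * r + 3).factorial : ℝ) with hBdef
  have hf : (0:ℝ) < (2 * r + 3).factorial := by exact_mod_cast (2 * r + 3).factorial_pos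
  have hB0 : 0 < B := by positivity
  have hBA : B < A := by
    rw [hBdef, ← Cc_mul_F0, hAdef]
    exact mul_lt_mul_of_pos_left S.count (div_pos (Cc_pos r) (by positivity))
  obtain ⟨c, hc0, hc⟩ : ∃ c : ℝ, 0 < c ∧ (1 + c) * B < A := by
    refine ⟨(A - B) / (2 * B), div_pos (by linarith) (by linarith), ?_⟩
    have : (1 + (A - B) / (2 * B)) * B = (A + B) / 2 := by
      field_simp
      ring
    rw [this]
    linarith
  refine ⟨c, hc0, ?_⟩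
  have hlt := (hB.const_mul (1 + c)).eventually_lt hA hc
  filter_upwards [hlt, eventually_gt_atTop 0] with k hk hk0
  have hk' : (0:ℝ) < (k:ℝ) ^ (2 * r + 3) := pow_pos (by exact_mod_cast hk0) _
  rw [← mul_div_assoc] at hk
  have h1 := (div_lt_div_iff_of_pos_right hk').1 hk
  refine lt_of_le_of_lt ?_ h1
  exact mul_le_mul_of_nonneg_left (hE_le r hk0) (by linarith)

/-- **Counting, all `m = r + 1 ≥ 5`, all large `k`.** -/
theorem count_all {r : ℕ} (hr : 4 ≤ r) : ∃ (x h c : ℝ), 0 < x ∧ 1 ≤ h ∧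
    h + ((r + 1 : ℕ) : ℝ) * x < ((r + 1 : ℕ) : ℝ) + 1 ∧ x ^ (2 * (r + 1) + 1) * h < 1 ∧ 0 < c ∧
    ∀ᶠ k : ℕ in atTop, ∃ (Dm : ℕ) (θ : ℕ → ℕ),
      (∀ d, 2 ≤ d → d ≤ Dm → 0 < ∑ μ ∈ Finset.Icc (θ d) d, B5.Emul (r + 1) d μ ∧
        ((d : ℝ) * (d + 2 * ((r + 1 : ℕ) : ℝ))) *
          (∑ μ ∈ Finset.Icc (θ d) d, (B5.Emul (r + 1) d μ : ℝ)) -
        (1 - 1 / h) * (∑ μ ∈ Finset.Icc (θ d) d, ((μ : ℝ) ^ 2 * B5.Emul (r + 1) d μ)) <
        x * (k * (k + 2 * ((r + 1 : ℕ) : ℝ))) *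
          (∑ μ ∈ Finset.Icc (θ d) d, (B5.Emul (r + 1) d μ : ℝ))) ∧
      (1 + c) * (hE r k : ℝ) <
        ((∑ d ∈ Finset.Icc 2 Dm, ∑ μ ∈ Finset.Icc (θ d) d, B5.Emul (r + 1) d μ : ℕ) : ℝ) := by
  obtain ⟨S⟩ := exists_static hr
  obtain ⟨c, hc0, hc⟩ := total_gt S
  refine ⟨S.x, S.h, c, S.hx, S.hh, ?_, S.start, hc0, ?_⟩
  · have := S.strict
    push_cast
    exact this
  have hcond : ∀ᶠ k : ℕ in atTop, ∀ j ∈ Finset.range (S.J + 1), ∀ d : ℕ, 2 ≤ d →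
      (d:ℝ) ≤ S.s j * k →
      ((d : ℝ) * (d + 2 * ((r + 1 : ℕ) : ℝ))) * (NN r (S.t j) d : ℝ) -
        (1 - 1 / S.h) * (MM2 r (S.t j) d : ℝ) <
        S.x * (k * (k + 2 * ((r + 1 : ℕ) : ℝ))) * (NN r (S.t j) d : ℝ) := by
    rw [eventually_all_finset]
    intro j hj
    have hj' : j ≤ S.J := Nat.lt_succ_iff.1 (Finset.mem_range.1 hj)
    exact cond_one r (S.tn j) (S.t1 j hj') (S.s0 j hj') S.hx S.hh (S.cond j hj')
  filter_upwards [hc, hcond] with k hc hcond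
  refine ⟨Xk S k S.J, fun d => th (S.t (jd S.J (Xk S k) d)) d, ?_, ?_⟩
  · intro d hd hdX
    set j := jd S.J (Xk S k) d with hj
    have hjJ : j ≤ S.J := jd_le _ _ _
    have h1 := sum_one r (S.tn j) hd
    have h2 := sum_sq r (S.tn j) hd
    have h1' : ∑ μ ∈ Finset.Icc (th (S.t j) d) d, (B5.Emul (r + 1) d μ : ℝ) =
        (NN r (S.t j) d : ℝ) := by
      rw [← h1]; push_cast; rfl
    have h2' : ∑ μ ∈ Finset.Icc (th (S.t j) d) d, ((μ : ℝ) ^ 2 * B5.Emul (r + 1) d μ) =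
        (MM2 r (S.t j) d : ℝ) := by
      rw [← h2]; push_cast; rfl
    refine ⟨?_, ?_⟩
    · show 0 < ∑ μ ∈ Finset.Icc (th (S.t j) d) d, B5.Emul (r + 1) d μ
      rw [h1]; exact NN_pos _ _ _
    · show ((d : ℝ) * (d + 2 * ((r + 1 : ℕ) : ℝ))) *
          (∑ μ ∈ Finset.Icc (th (S.t j) d) d, (B5.Emul (r + 1) d μ : ℝ)) -
        (1 - 1 / S.h) * (∑ μ ∈ Finset.Icc (th (S.t j) d) d, ((μ : ℝ) ^ 2 * B5.Emul (r + 1) d μ)) <
        S.x * (k * (k + 2 * ((r + 1 : ℕ) : ℝ))) *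
          (∑ μ ∈ Finset.Icc (th (S.t j) d) d, (B5.Emul (r + 1) d μ : ℝ))
      rw [h1', h2']
      refine hcond j (Finset.mem_range.2 (Nat.lt_succ_of_le hjJ)) d hd ?_
      have h3 : d ≤ Xk S k j := le_X_jd hdX
      have h4 : (0:ℝ) ≤ S.s j * k := mul_nonneg (S.s0 j hjJ).le (Nat.cast_nonneg k)
      exact (Nat.le_floor_iff h4).1 h3
  · refine lt_of_lt_of_eq hc ?_
    push_cast
    refine Finset.sum_congr rfl fun d hd => ?_
    have hd' := (Finset.mem_Icc.1 hd).1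
    have h1 := sum_one r (S.tn (jd S.J (Xk S k) d)) hd'
    rw [← h1]
    push_cast
    rfl

end Vale.Agent.P225.AE
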