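import Vale.Agent.P225.AE.Count3

open Filter Topology

namespace Vale.Agent.P225.AE

theorem Dpq_comm (m p q : ℕ) : B5.Dpq m p q = B5.Dpq m q p := by
  unfold B5.Dpq
  by_cases h : p = 0 ∨ q = 0
  · rw [if_pos h, if_pos (or_comm.1 h), mul_comm]
  · rw [if_neg h, if_neg (fun h' => h (or_comm.1 h')), mul_comm,
      mul_comm ((m + (q - 1)).choose m)]

/-- threshold for the value `|p - q|` -/
def thetaOf (d n : ℕ) : ℕ := d - 2 * n + 2

open Finset in
theorem sum_Emul (m : ℕ) (f : ℕ → ℕ) {d n : ℕ} (hn : 2 * n ≤ d) (hn1 : 1 ≤ n) :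
    ∑ μ ∈ Finset.Icc (thetaOf d n) d, f μ * B5.Emul m d μ
      = 2 * ∑ p ∈ Finset.range n, f (d - 2 * p) * B5.Dpq m p (d - p) := by
  have h1 : ∑ μ ∈ Finset.Icc (thetaOf d n) d, f μ * B5.Emul m d μ
      = ∑ p ∈ Finset.range (d + 1), (if thetaOf d n ≤ (2 * (p : ℤ) - d).natAbs then
          f ((2 * (p : ℤ) - d).natAbs) * B5.Dpq m p (d - p) else 0) := by
    simp only [B5.Emul, mul_sum]
    rw [sum_comm]
    refine sum_congr rfl fun p hp => ?_
    have hp' : p ≤ d := Nat.lt_succ_iff.1 (mem_range.1 hp)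
    have hle : (2 * (p : ℤ) - d).natAbs ≤ d := by omega
    simp only [mul_ite, mul_zero]
    rw [sum_ite_eq]
    simp only [Finset.mem_Icc]
    by_cases h : thetaOf d n ≤ (2 * (p : ℤ) - d).natAbs
    · rw [if_pos ⟨h, hle⟩, if_pos h]
    · rw [if_neg (fun h' => h h'.1), if_neg h]
  rw [h1]
  set g : ℕ → ℕ := fun p => if thetaOf d n ≤ (2 * (p : ℤ) - d).natAbs then
          f ((2 * (p : ℤ) - d).natAbs) * B5.Dpq m p (d - p) else 0 with hg
  have hsub : range n ∪ (range n).image (fun p => d - p) ⊆ range (d + 1) := by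
    intro p hp
    rw [mem_union, mem_image] at hp
    rw [mem_range]
    rcases hp with hp | ⟨q, hq, rfl⟩
    · have := mem_range.1 hp
      omega
    · omega
  have hzero : ∀ p ∈ range (d + 1), p ∉ range n ∪ (range n).image (fun p => d - p) →
      g p = 0 := by
    intro p hp hp'
    rw [mem_union, not_or, mem_range, mem_image] at hp'
    have h2 : n ≤ p := not_lt.1 hp'.1
    have h3 : n ≤ d - p := by
      by_contra h4
      exact hp'.2 ⟨d - p, mem_range.2 (by omega), by have := mem_range.1 hp; omega⟩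
    simp only [hg]
    rw [if_neg]
    unfold thetaOf
    omega
  have hdisj : Disjoint (range n) ((range n).image (fun p => d - p)) := by
    rw [Finset.disjoint_left]
    intro p hp hp'
    obtain ⟨q, hq, hqp⟩ := mem_image.1 hp'
    have := mem_range.1 hp
    have := mem_range.1 hq
    omega
  rw [← sum_subset hsub hzero, sum_union hdisj, sum_image (by
    intro p hp q hq h
    have h1 := mem_range.1 (by exact_mod_cast hp : p ∈ range n)
    have h2 := mem_range.1 (by exact_mod_cast hq : q ∈ range n)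
    simp only at h
    omega), ← sum_add_distrib, mul_sum]
  refine sum_congr rfl fun p hp => ?_
  have hp' := mem_range.1 hp
  have e1 : (2 * (p : ℤ) - d).natAbs = d - 2 * p := by omega
  have e2 : (2 * ((d - p : ℕ) : ℤ) - d).natAbs = d - 2 * p := by omega
  have e3 : thetaOf d n ≤ d - 2 * p := by unfold thetaOf; (clear * - hn hp' e2; omega)
  have e4 : d - (d - p) = p := by omega
  simp only [hg]
  rw [e1, e2, if_pos e3, if_pos e3, e4, Dpq_comm m (d - p) p]
  ring

/-- the threshold used in degree `d` -/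
noncomputable def th (t : ℝ) (d : ℕ) : ℕ := thetaOf d (nt t d)

theorem sum_one (r : ℕ) {t : ℝ} (ht : 0 ≤ t) {d : ℕ} (hd : 2 ≤ d) :
    ∑ μ ∈ Finset.Icc (th t d) d, B5.Emul (r + 1) d μ = NN r t d := by
  have h := sum_Emul (r + 1) (fun _ => 1) (two_nt_le ht hd) (nt_pos t d)
  simpa only [NN, th, one_mul] using h

theorem sum_sq (r : ℕ) {t : ℝ} (ht : 0 ≤ t) {d : ℕ} (hd : 2 ≤ d) :
    ∑ μ ∈ Finset.Icc (th t d) d, μ ^ 2 * B5.Emul (r + 1) d μ = MM2 r t d :=
  sum_Emul (r + 1) (fun μ => μ ^ 2) (two_nt_le ht hd) (nt_pos t d)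

theorem Dpq_pos (r p q : ℕ) : 0 < B5.Dpq (r + 1) p q := by
  have h := Dpq_closed r p q
  have h1 : 0 < (p + r).choose r := Nat.choose_pos (Nat.le_add_left r p)
  have h2 : 0 < (q + r).choose r := Nat.choose_pos (Nat.le_add_left r q)
  have h3 : 0 < (p + q + r + 1) * (((p + r).choose r) * ((q + r).choose r)) := by positivity
  rw [← h] at h3
  exact Nat.pos_of_mul_pos_left h3

theorem NN_pos (r : ℕ) (t : ℝ) (d : ℕ) : 0 < NN r t d := by
  unfold NN
  have : 0 < ∑ p ∈ Finset.range (nt t d), B5.Dpq (r + 1) p (d - p) :=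
    Finset.sum_pos (fun p _ => Dpq_pos r p (d - p))
      (Finset.nonempty_range_iff.2 (Nat.one_le_iff_ne_zero.1 (nt_pos t d)))
  omega

end Vale.Agent.P225.AE
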