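import Vale.Agent.P225.Bdl.B5

/-!
# P225, all even dimensions: the final assembly for a given degree
-/

open MvPolynomial Filter Topology
open scoped ContDiff

namespace Vale.Agent.P225.B5

open Vale.Agent.P225.B

/-- **Final assembly**, with the degree `k` given and `Nt` functions. -/
theorem final_k {m : ℕ} (hm : 1 ≤ m) (hA : AlgOut m) (hE : EigOut m) {x h : ℝ} {k Dm : ℕ}
    {θ : ℕ → ℕ} (hx : 0 < x) (hh : 1 ≤ h) (hhx : h + m * x < m + 1)
    (hxh : x ^ (2 * m + 1) * h < 1)
    (hcount : ∀ d, 2 ≤ d → d ≤ Dm →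
      0 < ∑ μ ∈ Finset.Icc (θ d) d, Emul m d μ ∧
      ((d : ℝ) * (d + 2 * m)) * (∑ μ ∈ Finset.Icc (θ d) d, (Emul m d μ : ℝ)) -
        (1 - 1 / h) * (∑ μ ∈ Finset.Icc (θ d) d, ((μ : ℝ) ^ 2 * Emul m d μ)) <
        x * (k * (k + 2 * m)) * (∑ μ ∈ Finset.Icc (θ d) d, (Emul m d μ : ℝ)))
    {Nt : ℕ} (htot : Nt ≤ ∑ d ∈ Finset.Icc 2 Dm, ∑ μ ∈ Finset.Icc (θ d) d, Emul m d μ) :
    ∃ g : RMetric (2 * m + 2), g.Complete ∧ RMetric.RicciNonneg g ∧
      ∃ v : Fin Nt → (Rn (2 * m + 2) → ℝ), LinearIndependent ℝ v ∧ ∀ i, v i ∈ g.harm k := by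
  classical
  obtain ⟨J0, hE⟩ := hE
  choose N b μ hb hμd hmul using hE
  -- the states
  choose S hSθ hSsum using fun d : ℕ =>
    exists_states (μ d) (Emul m d) (hmul d) (Finset.Icc (θ d) d)
  have hcard : ∀ d, (S d).card = ∑ k ∈ Finset.Icc (θ d) d, Emul m d k := by
    intro d
    have := hSsum d (fun _ => 1)
    simp only [Finset.sum_const, nsmul_eq_mul, mul_one, one_mul] at this
    exact_mod_cast this
  have hsx : 0 < √x := Real.sqrt_pos.2 hx
  have hlog : 0 ≤ Real.log h / 2 := div_nonneg (Real.log_nonneg hh) (by norm_num)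
  set eta0 : ℝ := Real.log h / 2 with heta0
  set q : ℝ := 2 * m + 1 with hq
  have hq0 : 0 < q := by positivity
  have hsig : √x * Real.exp (eta0 / q) * Real.exp (-(eta0 / q)) = √x := by
    rw [mul_assoc, ← Real.exp_add, add_neg_cancel, Real.exp_zero, mul_one]
  -- the static data
  let P : B2.Dat (Finset.Icc 2 Dm) (fun d => Fin (N d)) (JJ (2 * m + 2)) :=
    { m := m
      hm := hm
      Pinf := √x * Real.exp (eta0 / q)
      hP0 := by (clear * - hx; positivity)
      hP1 := by
        have h1 : (√x * Real.exp (eta0 / q)) ^ (2 * (2 * m + 1)) < 1 := by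
          have e1 : (√x * Real.exp (eta0 / q)) ^ (2 * (2 * m + 1)) = x ^ (2 * m + 1) * h := by
            rw [mul_pow, pow_mul, Real.sq_sqrt hx.le, ← Real.exp_nat_mul]
            congr 1
            have : ((2 * (2 * m + 1) : ℕ) : ℝ) * (eta0 / q) = Real.log h := by
              rw [heta0, hq]
              push_cast
              field_simp
            rw [this, Real.exp_log (by linarith only [hh])]
          rw [e1]
          exact hxh
        by_contra hcon
        push Not at hcon
        have := one_le_pow₀ (n := 2 * (2 * m + 1)) hcon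
        linarith only [h1, this]
      eta0 := eta0
      heta0 := hlog
      strict := by
        have e1 : Real.exp (2 * eta0) = h := by
          rw [heta0, mul_div_cancel₀ _ (two_ne_zero), Real.exp_log (by linarith only [hh])]
        show Real.exp (2 * eta0) + m * (√x * Real.exp (eta0 / q) *
          Real.exp (-(eta0 / q))) ^ 2 < m + 1
        rw [hsig, Real.sq_sqrt hx.le, e1]
        exact hhx
      deg := fun d => d.1
      hdeg := fun d => (Nat.le_succ 1).trans (Finset.mem_Icc.1 d.2).1
      J0 := J0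
      M := fun J d => opc (b d) (rst (MM J.1) d)
      mu := fun d i => (μ d i : ℝ) ^ 2
      hmu0 := fun d i => sq_nonneg _
      hmu := by
        intro d i
        have h1 : (μ d i : ℝ) ≤ (d : ℕ) := by exact_mod_cast hμd d i
        have h2 : (0 : ℝ) ≤ μ d i := Nat.cast_nonneg _
        have h3 : (0 : ℝ) ≤ ((d : ℕ) : ℝ) * (2 * m) := by (clear * - hm; positivity)
        nlinarith only [h1]
      hM0 := fun d i => opc_single (b d) _ (hb d i) }
  have hPsig : P.sig0 = √x := hsig
  -- the control data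
  have hkap : ∀ d, 0 < P.kap d := by
    intro d
    have hC0 : 0 ≤ P.C d := by
      show (0 : ℝ) ≤ ((P.deg d : ℕ) : ℝ) * (P.deg d + 2 * P.m)
      positivity
    have h1 : 0 < P.m * P.Pinf := mul_pos (by exact_mod_cast P.hm) P.hP0
    have h2 : P.m * P.Pinf ≤ √((P.m * P.Pinf) ^ 2 + P.C d) := by
      apply Real.le_sqrt_of_sq_le
      linarith only [hC0]
    show 0 < 1 / (2 * P.s d + 2 * P.m * P.Pinf)
    have h3 : 0 ≤ P.s d := by
      show 0 ≤ -(P.m * P.Pinf) + √((P.m * P.Pinf) ^ 2 + P.C d)
      linarith only [h2]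
    have : 0 < 2 * P.s d + 2 * P.m * P.Pinf := by nlinarith only [h1, h3]
    positivity
  obtain ⟨l, word, c0, lam0, F', pi, sg, hF, hsurj, hsg, hpi, hT, hcyc⟩ :=
    hA Dm (fun d => Fin (N d)) (fun d => b d) P.kap hkap (fun d => S d)
  let Q : B2.Ctl P :=
    { l := l
      word := word
      c0 := c0
      lam0 := lam0
      F' := F'
      hF := hF
      hsurj := hsurj
      Sset := fun d => S d
      pi := pi
      hpi := hpi
      sg := sg
      hsg := hsg
      hT := hT
      k := k
      hk := Nat.cast_nonneg k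
      havg := by
        intro d i hi
        have hne : (S d).Nonempty := ⟨i, hi⟩
        refine ⟨(S d).card, Finset.card_pos.2 hne, (hcyc d i hi).1, ?_⟩
        rw [(hcyc d i hi).2 (fun j => P.S d j - k * P.sig0)]
        have hd := Finset.mem_Icc.1 d.2
        have hmain := (hcount d hd.1 hd.2).2
        have e1 : ((S d).card : ℝ) = ∑ μ ∈ Finset.Icc (θ d) d, (Emul m d μ : ℝ) := by
          rw [hcard]
          push_cast
          rfl
        have e2 : ∑ i ∈ S d, (μ d i : ℝ) ^ 2 =
            ∑ μ ∈ Finset.Icc (θ d) (d : ℕ), ((μ : ℝ) ^ 2 * Emul m d μ) :=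
          hSsum d (fun k => (k : ℝ) ^ 2)
        rw [← e1, ← e2] at hmain
        have := mean_exponent (m := m) hx hh (k := k) (μ d) d (hμd d) (S d) hne hmain
        rw [hPsig]
        refine lt_of_eq_of_lt (Finset.sum_congr rfl fun j _ => ?_) this
        show B2.sroot P.m P.sig0 (P.C d - B2.beta P.eta0 * P.mu d j) - k * √x = _
        rw [hPsig]
        rfl }
  obtain ⟨σ, η, φ, J, K, hσs, hηs, hφs, hφ, hinit, hσb, hJ, hcurv, hw⟩ := B2.main P Q
  have hσ0 : ∀ t, 0 ≤ σ t := fun t => by
    have h1 := (hσb t).1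
    rw [hPsig] at h1
    exact hsx.le.trans h1
  -- the metric
  let D : BData (2 * m + 2) :=
    { φ := φ
      η := η
      J := fun t => (J t).1
      φ_smooth := hφs
      η_smooth := hηs
      J_skew := fun t => (J t).2.1
      J_sq := fun t => (J t).2.2
      J_loc := fun t => (hJ t).symm.imp id (fun h => h.mono fun s hs => congrArg Subtype.val hs)
      φ_init := fun t ht => (hinit t ht).2.2
      η_init := fun t ht => (hinit t ht).2.1 }
  have hdφ : deriv φ = σ := funext fun t => (hφ t).deriv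
  have hlim : Tendsto φ atTop atTop := by
    have h1 : ∀ t, 0 ≤ t → φ 0 + √x * t ≤ φ t := by
      intro t ht
      have hd : ∀ s, HasDerivAt (fun s => φ s - √x * s) (σ s - √x * 1) s := fun s =>
        (hφ s).sub ((hasDerivAt_id s).const_mul (√x))
      have hmono : Monotone fun s => φ s - √x * s :=
        monotone_of_hasDerivAt_nonneg hd (fun s => by
          have h1 := (hσb s).1
          rw [hPsig] at h1
          show (0 : ℝ) ≤ σ s - √x * 1
          linarith only [h1])
      have := hmono ht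
      simp only [mul_zero, sub_zero] at this
      linarith only [this]
    refine tendsto_atTop_mono' atTop (f₁ := fun t => φ 0 + √x * t) ?_ ?_
    · filter_upwards [eventually_ge_atTop 0] with t ht
      exact h1 t ht
    · exact tendsto_atTop_add_const_left _ _ (Tendsto.const_mul_atTop hsx tendsto_id)
  have hP : ∀ x v : Rn (2 * m + 2), x ≠ 0 → Real.exp (2 * φ (Real.log ‖x‖) - 2 * Real.log ‖x‖) *
      (inner ℝ x v / ‖x‖) ^ 2 ≤ D.met.quad x v := fun x v hx => D.quad_ge hx v
  refine ⟨D.met, model_complete hφ hσ0 (fun t => (hσb t).2) hlim hP, ?_, ?_⟩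
  · -- Ricci
    have hcast : (((2 * m + 2 : ℕ) : ℝ)) = 2 * m + 2 := by push_cast; ring
    refine D.ricciNonneg (fun t => ?_) (fun t => ?_) (fun t => ?_)
    · have h1 := (hcurv t).1
      show 0 ≤ -(((2 * m + 2 : ℕ) : ℝ) - 1) * deriv (deriv φ) t - deriv (deriv η) t -
        deriv φ t * deriv η t - deriv η t ^ 2
      rw [hdφ, hcast]
      have e : -((2 * (m : ℝ) + 2) - 1) * deriv σ t = -((2 * P.m + 1) * deriv σ t) := by
        show -((2 * (m : ℝ) + 2) - 1) * deriv σ t = -((2 * (m : ℝ) + 1) * deriv σ t)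
        ring
      rw [e]
      exact h1
    · have h1 := (hcurv t).2.1
      show 0 ≤ (((2 * m + 2 : ℕ) : ℝ) - 2) * (Real.exp (2 * η t) - deriv φ t ^ 2) -
        deriv (deriv φ) t - (((2 * m + 2 : ℕ) : ℝ) - 1) * deriv φ t * deriv η t -
        deriv η t ^ 2 - deriv (deriv η) t
      rw [hdφ, hcast]
      have e1 : (2 * (m : ℝ) + 2) - 2 = 2 * P.m := by
        show (2 * (m : ℝ) + 2) - 2 = 2 * (m : ℝ)
        ring
      have e2 : (2 * (m : ℝ) + 2) - 1 = 2 * P.m + 1 := by
        show (2 * (m : ℝ) + 2) - 1 = 2 * (m : ℝ) + 1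
        ring
      rw [e1, e2]
      exact h1
    · have h1 := (hcurv t).2.2
      show 0 ≤ (((2 * m + 2 : ℕ) : ℝ)) - 2 * Real.exp (2 * η t) -
        (((2 * m + 2 : ℕ) : ℝ) - 2) * deriv φ t ^ 2 - deriv (deriv φ) t - deriv φ t * deriv η t
      rw [hdφ, hcast]
      have e1 : (2 * (m : ℝ) + 2) - 2 = 2 * P.m := by
        show (2 * (m : ℝ) + 2) - 2 = 2 * (m : ℝ)
        ring
      rw [e1]
      have e3 : (2 * (m : ℝ) + 2) = 2 * P.m + 2 := rfl
      rw [e3]
      exact h1
  · -- the harmonic functions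
    refine count_final D.met k (D := Finset.Icc 2 Dm) (deg := fun d => (d : ℕ))
      Subtype.val_injective (ι := fun d => Fin (N d))
      (p := fun d i => ((b d i : HH ℝ (2 * m + 2) d) : MvPolynomial (Fin (2 * m + 2)) ℝ))
      (fun d i => ((mem_HH).1 (b d i).2).1) (fun d => ?_) (fun d => S d) ?_ ?_
    · exact (b d).linearIndependent.map' (Submodule.subtype _) (Submodule.ker_subtype _)
    · intro d i hi
      obtain ⟨w, w1, hws, hw0, hsol, hgr⟩ := hw d i hi
      have hhom : ∀ j, (((b d j : HH ℝ (2 * m + 2) d) :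
          MvPolynomial (Fin (2 * m + 2)) ℝ)).IsHomogeneous d := fun j =>
        ((mem_HH).1 (b d j).2).1
      refine ⟨usol d (fun j => ((b d j : HH ℝ (2 * m + 2) d) :
        MvPolynomial (Fin (2 * m + 2)) ℝ)) w, ⟨usol_contDiff hhom hws hw0, fun x => ?_, ?_⟩, ?_⟩
      · refine BData.lap_usol D (m := m) rfl (fun j => (b d j).2)
          (M := fun t => opc (b d) (rst (MM (J t).1) d)) ?_ hφ hws hw0 hsol x
        intro t j
        have h1 := congrArg Subtype.val (opc_expand (b d) (rst (MM (J t).1) d) j)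
        rw [(pres_MM (J t).2.1).rst_coe] at h1
        rw [Submodule.coe_sum] at h1
        simp only [Submodule.coe_smul] at h1
        rw [← h1]
        rfl
      · obtain ⟨C, hC, hCw⟩ := abs_usol_le hhom w
        refine model_growth hφ hσ0 (fun t => (hσb t).2) hP
          (usol_contDiff hhom hws hw0).continuous k (C := C * K) fun x hx => ?_
        have hl : 0 ≤ Real.log ‖x‖ := Real.log_nonneg hx
        refine (hCw x).trans ?_
        rw [mul_assoc]
        exact mul_le_mul_of_nonneg_left (hgr _ hl) hC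
      · intro x hx
        rw [usol_of_norm_le hhom hw0 hx]
        rw [Finset.sum_eq_single i]
        · simp only [Pi.single_eq_same, one_mul]
        · intro j _ hj
          simp only [ne_eq, hj, not_false_eq_true, Pi.single_eq_of_ne, zero_mul]
        · intro h
          exact absurd (Finset.mem_univ i) h
    · have e : ∑ d : Finset.Icc 2 Dm, (S (d : ℕ)).card =
          ∑ d ∈ Finset.Icc 2 Dm, ∑ μ ∈ Finset.Icc (θ d) d, Emul m d μ := by
        rw [← Finset.sum_coe_sort (Finset.Icc 2 Dm) (fun d => ∑ μ ∈ Finset.Icc (θ d) d,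
          Emul m d μ)]
        exact Finset.sum_congr rfl fun d _ => hcard d
      rw [e]
      exact htot

end Vale.Agent.P225.B5
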