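import Mathlib

/-!
# P225, all even dimensions: the integrals

`F r t = ∫_t^1 (1-u²)^r du`, `G r t = ∫_t^1 u² (1-u²)^r du`, `e = G/F`.  Main output: `exists_partition`.
-/

open MeasureTheory intervalIntegral Set Filter Topology

namespace Vale.Agent.P225.AE

/-- `∫_t^1 (1-u²)^r du` -/
noncomputable def F (r : ℕ) (t : ℝ) : ℝ := ∫ u in t..1, (1 - u ^ 2) ^ r

/-- `∫_t^1 u² (1-u²)^r du` -/
noncomputable def G (r : ℕ) (t : ℝ) : ℝ := ∫ u in t..1, u ^ 2 * (1 - u ^ 2) ^ r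

/-- the mean of `u²` on `[t,1]` -/
noncomputable def e (r : ℕ) (t : ℝ) : ℝ := G r t / F r t

theorem cont_f (r : ℕ) : Continuous fun u : ℝ => (1 - u ^ 2) ^ r := by fun_prop

theorem int_f (r : ℕ) (a b : ℝ) : IntervalIntegrable (fun u : ℝ => (1 - u ^ 2) ^ r) volume a b :=
  (cont_f r).intervalIntegrable a b

theorem int_g (r : ℕ) (a b : ℝ) :
    IntervalIntegrable (fun u : ℝ => u ^ 2 * (1 - u ^ 2) ^ r) volume a b :=
  Continuous.intervalIntegrable (by fun_prop) a b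

theorem f_nonneg (r : ℕ) {u : ℝ} (h0 : 0 ≤ u) (h1 : u ≤ 1) : 0 ≤ (1 - u ^ 2) ^ r := by
  apply pow_nonneg; nlinarith

theorem f_le_one (r : ℕ) {u : ℝ} (h0 : 0 ≤ u) (h1 : u ≤ 1) : (1 - u ^ 2) ^ r ≤ 1 :=
  pow_le_one₀ (by nlinarith) (by nlinarith)

theorem F_pos (r : ℕ) {t : ℝ} (h0 : 0 ≤ t) (h1 : t < 1) : 0 < F r t := by
  apply intervalIntegral_pos_of_pos_on (int_f r _ _) _ h1
  intro u hu
  have : 0 < 1 - u ^ 2 := by nlinarith [hu.1, hu.2]
  exact pow_pos this r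

theorem F_nonneg (r : ℕ) {t : ℝ} (h0 : 0 ≤ t) (h1 : t ≤ 1) : 0 ≤ F r t :=
  integral_nonneg h1 fun _ hu => f_nonneg r (h0.trans hu.1) hu.2

theorem F_one (r : ℕ) : F r 1 = 0 := by simp [F]

theorem F_sub (r : ℕ) (a b : ℝ) : F r a - F r b = ∫ u in a..b, (1 - u ^ 2) ^ r := by
  unfold F
  rw [← integral_add_adjacent_intervals (int_f r a b) (int_f r b 1)]
  ring

theorem G_sub (r : ℕ) (a b : ℝ) : G r a - G r b = ∫ u in a..b, u ^ 2 * (1 - u ^ 2) ^ r := by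
  unfold G
  rw [← integral_add_adjacent_intervals (int_g r a b) (int_g r b 1)]
  ring

theorem F_hasDerivAt (r : ℕ) (t : ℝ) : HasDerivAt (F r) (-(1 - t ^ 2) ^ r) t := by
  have := intervalIntegral.integral_hasDerivAt_left (int_f r t 1)
    ((cont_f r).stronglyMeasurableAtFilter _ _) (cont_f r).continuousAt
  exact this

theorem F_cont (r : ℕ) : Continuous (F r) :=
  continuous_iff_continuousAt.2 fun t => (F_hasDerivAt r t).continuousAt

/-- `(2r+3) G(t) = F(t) + t (1-t²)^(r+1)` -/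
theorem G_eq (r : ℕ) (t : ℝ) : (2 * r + 3) * G r t = F r t + t * (1 - t ^ 2) ^ (r + 1) := by
  have h1 : ∀ u ∈ uIcc t 1, HasDerivAt (fun u : ℝ => u * (1 - u ^ 2) ^ (r + 1))
      ((1 - u ^ 2) ^ r - (2 * r + 3) * (u ^ 2 * (1 - u ^ 2) ^ r)) u := by
    intro u _
    have h2 : HasDerivAt (fun u : ℝ => 1 - u ^ 2) (-(2 * u)) u := by
      simpa using ((hasDerivAt_pow 2 u).const_sub 1)
    have h3 := (hasDerivAt_id u).mul (h2.pow (r + 1))
    refine h3.congr_deriv ?_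
    simp only [id, Nat.cast_add, Nat.cast_one, Nat.add_sub_cancel, Pi.pow_apply]
    ring
  have h2 := integral_eq_sub_of_hasDerivAt h1
    (((int_f r t 1)).sub ((int_g r t 1).const_mul _))
  rw [intervalIntegral.integral_sub (int_f r t 1) ((int_g r t 1).const_mul _),
    intervalIntegral.integral_const_mul] at h2
  have h3 : (∫ u in t..1, (1 - u ^ 2) ^ r) = F r t := rfl
  have h4 : (∫ u in t..1, u ^ 2 * (1 - u ^ 2) ^ r) = G r t := rfl
  rw [h3, h4] at h2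
  simp only [one_pow, sub_self, ne_eq, Nat.add_eq_zero_iff, one_ne_zero, and_false,
    not_false_eq_true, zero_pow, mul_zero, zero_sub] at h2
  linarith

theorem G_nonneg (r : ℕ) {t : ℝ} (h0 : 0 ≤ t) (h1 : t ≤ 1) : 0 ≤ G r t :=
  integral_nonneg h1 fun _ hu => mul_nonneg (sq_nonneg _) (f_nonneg r (h0.trans hu.1) hu.2)

theorem G_le_F (r : ℕ) {t : ℝ} (h0 : 0 ≤ t) (h1 : t ≤ 1) : G r t ≤ F r t := by
  apply integral_mono_on h1 (int_g r _ _) (int_f r _ _)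
  intro u hu
  have := f_nonneg r (h0.trans hu.1) hu.2
  have h2 : u ^ 2 ≤ 1 := by nlinarith [hu.1, hu.2]
  nlinarith

theorem sq_mul_F_le_G (r : ℕ) {t : ℝ} (h0 : 0 ≤ t) (h1 : t ≤ 1) : t ^ 2 * F r t ≤ G r t := by
  unfold F G
  rw [← intervalIntegral.integral_const_mul]
  apply integral_mono_on h1 ((int_f r _ _).const_mul _) (int_g r _ _)
  intro u hu
  have := f_nonneg r (h0.trans hu.1) hu.2
  have h2 : t ^ 2 ≤ u ^ 2 := by nlinarith [hu.1, hu.2]
  nlinarith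

theorem e_nonneg (r : ℕ) {t : ℝ} (h0 : 0 ≤ t) (h1 : t ≤ 1) : 0 ≤ e r t :=
  div_nonneg (G_nonneg r h0 h1) (F_nonneg r h0 h1)

theorem e_le_one (r : ℕ) {t : ℝ} (h0 : 0 ≤ t) (h1 : t < 1) : e r t ≤ 1 := by
  unfold e
  rw [div_le_one (F_pos r h0 h1)]
  exact G_le_F r h0 h1.le

/-- `e` is nondecreasing -/
theorem e_mono (r : ℕ) {s t : ℝ} (h0 : 0 ≤ s) (hst : s ≤ t) (h1 : t < 1) : e r s ≤ e r t := by
  have hFs := F_pos r h0 (hst.trans_lt h1)
  have hFt := F_pos r (h0.trans hst) h1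
  unfold e
  rw [div_le_div_iff₀ hFs hFt]
  have h2 : G r s - G r t ≤ t ^ 2 * (F r s - F r t) := by
    rw [F_sub, G_sub, ← intervalIntegral.integral_const_mul]
    apply integral_mono_on hst (int_g r _ _) ((int_f r _ _).const_mul _)
    intro u hu
    have := f_nonneg r (h0.trans hu.1) (hu.2.trans h1.le)
    have h2 : u ^ 2 ≤ t ^ 2 := by nlinarith [hu.1, hu.2]
    nlinarith
  have h3 : 0 ≤ F r s - F r t := by
    rw [F_sub]
    exact integral_nonneg hst fun u hu => f_nonneg r (h0.trans hu.1) (hu.2.trans h1.le)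
  have h4 := sq_mul_F_le_G r (h0.trans hst) h1.le
  nlinarith

theorem e_mul_F (r : ℕ) {t : ℝ} (h0 : 0 ≤ t) (h1 : t < 1) : e r t * F r t = G r t := by
  unfold e
  field_simp [(F_pos r h0 h1).ne']

end Vale.Agent.P225.AE
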