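import Vale.Agent.P225.AE.Moments

open MeasureTheory intervalIntegral Set Filter Topology

namespace Vale.Agent.P225.AE

theorem M3 (r : ℕ) : M 3 r = 1 / (2 * (r + 1) * (r + 2)) := by
  have h := M_rec 1 r
  rw [M_one] at h
  have h1 : (0:ℝ) < r + 1 := by positivity
  have h2 : (0:ℝ) < r + 2 := by positivity
  push_cast at h
  field_simp at h ⊢
  linarith

theorem M5 (r : ℕ) : M 5 r = 1 / ((r + 1) * (r + 2) * (r + 3)) := by
  have h := M_rec 3 r
  rw [M3] at h
  have h1 : (0:ℝ) < r + 1 := by positivity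
  have h2 : (0:ℝ) < r + 2 := by positivity
  have h3 : (0:ℝ) < r + 3 := by positivity
  push_cast at h
  field_simp at h ⊢
  linarith

theorem M2' (r : ℕ) : M 2 r = F r 0 / (2 * r + 3) := by
  have h := M_rec 0 r
  rw [M_zero] at h
  have h1 : (0:ℝ) < 2 * r + 3 := by positivity
  push_cast at h
  field_simp
  linarith

theorem M4 (r : ℕ) : M 4 r = 3 * F r 0 / ((2 * r + 3) * (2 * r + 5)) := by
  have h := M_rec 2 r
  rw [M2'] at h
  have h1 : (0:ℝ) < 2 * r + 3 := by positivity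
  have h2 : (0:ℝ) < 2 * r + 5 := by positivity
  push_cast at h
  field_simp at h ⊢
  linarith

theorem M6 (r : ℕ) : M 6 r = 15 * F r 0 / ((2 * r + 3) * (2 * r + 5) * (2 * r + 7)) := by
  have h := M_rec 4 r
  rw [M4] at h
  have h1 : (0:ℝ) < 2 * r + 3 := by positivity
  have h2 : (0:ℝ) < 2 * r + 5 := by positivity
  have h3 : (0:ℝ) < 2 * r + 7 := by positivity
  push_cast at h
  field_simp at h ⊢
  linarith

/-- `I₁ = ∫ t (1-t²)^(r+1) (a+t)` -/
theorem I1_eq (r : ℕ) (a : ℝ) : ∫ t in (0:ℝ)..1, t * (1 - t ^ 2) ^ (r + 1) * (a + t) =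
    a * M 1 (r + 1) + M 2 (r + 1) := by
  unfold M
  rw [← intervalIntegral.integral_const_mul, ← intervalIntegral.integral_add
    ((int_m 1 (r + 1) 0 1).const_mul _) (int_m 2 (r + 1) 0 1)]
  congr 1
  ext t
  ring

/-- primitive of `t (1-t²) (a+t)²` -/
noncomputable def K (a t : ℝ) : ℝ := a ^ 2 * (t ^ 2 / 2 - t ^ 4 / 4) + 2 * a * (t ^ 3 / 3 - t ^ 5 / 5)
  + (t ^ 4 / 4 - t ^ 6 / 6)

theorem K_hasDerivAt (a t : ℝ) : HasDerivAt (K a) (t * (1 - t ^ 2) * (a + t) ^ 2) t := by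
  have h := fun n => hasDerivAt_pow n t
  have h1 := (((h 2).div_const 2).sub ((h 4).div_const 4)).const_mul (a ^ 2)
  have h2 := (((h 3).div_const 3).sub ((h 5).div_const 5)).const_mul (2 * a)
  have h3 := ((h 4).div_const 4).sub ((h 6).div_const 6)
  refine ((h1.add h2).add h3).congr_deriv ?_
  push_cast
  ring

/-- `I₂ = ∫ t (1-t²) (a+t)² F(t)` -/
theorem I2_eq (r : ℕ) (a : ℝ) : ∫ t in (0:ℝ)..1, t * (1 - t ^ 2) * (a + t) ^ 2 * F r t =
    a ^ 2 * (M 2 r / 2 - M 4 r / 4) + 2 * a * (M 3 r / 3 - M 5 r / 5) + (M 4 r / 4 - M 6 r / 6) := by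
  have h1 : ∀ t ∈ uIcc (0:ℝ) 1, HasDerivAt (fun t => K a t * F r t)
      (t * (1 - t ^ 2) * (a + t) ^ 2 * F r t + K a t * (-(1 - t ^ 2) ^ r)) t := fun t _ =>
    (K_hasDerivAt a t).mul (F_hasDerivAt r t)
  have hK : Continuous (K a) := by unfold K; fun_prop
  have c1 : IntervalIntegrable (fun t => t * (1 - t ^ 2) * (a + t) ^ 2 * F r t) volume 0 1 :=
    Continuous.intervalIntegrable (by have := F_cont r; fun_prop) _ _
  have c2 : IntervalIntegrable (fun t => K a t * (-(1 - t ^ 2) ^ r)) volume 0 1 :=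
    Continuous.intervalIntegrable (by fun_prop) _ _
  have h2 := integral_eq_sub_of_hasDerivAt h1 (c1.add c2)
  rw [intervalIntegral.integral_add c1 c2, F_one] at h2
  have hK0 : K a 0 = 0 := by simp [K]
  rw [hK0] at h2
  have h3 : ∫ t in (0:ℝ)..1, K a t * (-(1 - t ^ 2) ^ r) =
      -(a ^ 2 * (M 2 r / 2 - M 4 r / 4) + 2 * a * (M 3 r / 3 - M 5 r / 5) +
        (M 4 r / 4 - M 6 r / 6)) := by
    have e1 : (fun t => K a t * (-(1 - t ^ 2) ^ r)) = fun t : ℝ =>
        (-(a ^ 2 / 2)) * (t ^ 2 * (1 - t ^ 2) ^ r) + (a ^ 2 / 4 - 1 / 4) * (t ^ 4 * (1 - t ^ 2) ^ r)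
        + (-(2 * a / 3)) * (t ^ 3 * (1 - t ^ 2) ^ r) + (2 * a / 5) * (t ^ 5 * (1 - t ^ 2) ^ r)
        + (1 / 6) * (t ^ 6 * (1 - t ^ 2) ^ r) := by
      ext t
      unfold K
      ring
    rw [e1]
    have i := fun j => (int_m j r 0 1)
    rw [intervalIntegral.integral_add
        ((((((i 2).const_mul _).add ((i 4).const_mul _)).add ((i 3).const_mul _)).add
          ((i 5).const_mul _))) ((i 6).const_mul _),
      intervalIntegral.integral_add
        (((((i 2).const_mul _).add ((i 4).const_mul _)).add ((i 3).const_mul _)))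
          ((i 5).const_mul _),
      intervalIntegral.integral_add
        ((((i 2).const_mul _).add ((i 4).const_mul _))) ((i 3).const_mul _),
      intervalIntegral.integral_add ((i 2).const_mul _) ((i 4).const_mul _),
      intervalIntegral.integral_const_mul, intervalIntegral.integral_const_mul,
      intervalIntegral.integral_const_mul, intervalIntegral.integral_const_mul,
      intervalIntegral.integral_const_mul]
    have h4 : ∀ j, (∫ u in (0:ℝ)..1, u ^ j * (1 - u ^ 2) ^ r) = M j r := fun _ => rfl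
    rw [h4, h4, h4, h4, h4]
    ring
  rw [h3] at h2
  linarith

/-- the final rational inequality -/
theorem rat_ineq (y p : ℝ) (hy : 0 ≤ y) (hp : (y + 5) * p ≤ 5 * (128 / 315) ^ 2) :
    (y + 6) / (y + 5) * ((1 / 4) ^ 2 * p * (1 / (2 * (2 * y + 11)) -
        3 / (4 * ((2 * y + 11) * (2 * y + 13)))) +
      2 * (1 / 4) * (1 / (6 * (y + 5) * (y + 6)) - 1 / (5 * ((y + 5) * (y + 6) * (y + 7)))) +
      (3 / (4 * ((2 * y + 11) * (2 * y + 13))) -
        15 / (6 * ((2 * y + 11) * (2 * y + 13) * (2 * y + 15))))) <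
    (1 / 4 * (1 / (2 * (y + 6))) + (2 * y + 10) / ((2 * y + 11) * (2 * y + 13))) ^ 2 := by
  have hp' : p ≤ 5 * (128 / 315) ^ 2 / (y + 5) := by
    rw [le_div_iff₀ (by positivity)]; linarith
  have h0 : 0 ≤ 1 / (2 * (2 * y + 11)) - 3 / (4 * ((2 * y + 11) * (2 * y + 13))) := by
    rw [div_sub_div _ _ (by positivity) (by positivity)]
    apply div_nonneg _ (by positivity)
    nlinarith
  have h1 : (1 / 4) ^ 2 * p * (1 / (2 * (2 * y + 11)) -
        3 / (4 * ((2 * y + 11) * (2 * y + 13)))) ≤ (1 / 4) ^ 2 * (5 * (128 / 315) ^ 2 / (y + 5)) *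
        (1 / (2 * (2 * y + 11)) - 3 / (4 * ((2 * y + 11) * (2 * y + 13)))) := by
    apply mul_le_mul_of_nonneg_right _ h0
    apply mul_le_mul_of_nonneg_left hp' (by norm_num)
  refine lt_of_le_of_lt (mul_le_mul_of_nonneg_left (add_le_add_left (add_le_add_left h1 _) _)
    (by positivity)) ?_
  rw [← sub_pos]
  have e1 : (1 / 4 * (1 / (2 * (y + 6))) + (2 * y + 10) / ((2 * y + 11) * (2 * y + 13))) ^ 2 -
    (y + 6) / (y + 5) * ((1 / 4) ^ 2 * (5 * (128 / 315) ^ 2 / (y + 5)) * (1 / (2 * (2 * y + 11)) -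
        3 / (4 * ((2 * y + 11) * (2 * y + 13)))) +
      2 * (1 / 4) * (1 / (6 * (y + 5) * (y + 6)) - 1 / (5 * ((y + 5) * (y + 6) * (y + 7)))) +
      (3 / (4 * ((2 * y + 11) * (2 * y + 13))) -
        15 / (6 * ((2 * y + 11) * (2 * y + 13) * (2 * y + 15))))) =
      (71880295 / 448 + 11394983773 / 9408 * y + 20191352521 / 15680 * y ^ 2 +
        52588766771 / 84672 * y ^ 3 + 107070355913 / 635040 * y ^ 4 + 1458333209 / 52920 * y ^ 5 +
        107268743 / 39690 * y ^ 6 + 3890683 / 26460 * y ^ 7 + 135761 / 39690 * y ^ 8) /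
      ((y + 5) ^ 2 * (y + 6) ^ 2 * (y + 7) * (2 * y + 11) ^ 2 * (2 * y + 13) ^ 2 *
        (2 * y + 15)) := by
    field_simp
    ring
  rw [e1]
  positivity

end Vale.Agent.P225.AE
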