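import Vale.Agent.P225.AE.CountAll
import Vale.Agent.P225.AE.Final

/-!
# P225: Yau's dimension comparison fails in every even dimension `n ≥ 12`, for every large degree
-/

open Filter Topology

namespace Vale.Agent.P225.AE

theorem main {r : ℕ} (hr : 4 ≤ r) : ∃ c : ℝ, 0 < c ∧ ∀ᶠ k : ℕ in atTop,
    ∃ g : RMetric (2 * (r + 1) + 2), g.Complete ∧ g.RicciNonneg ∧ ∃ N : ℕ,
      (1 + c) * (hE r k : ℝ) < N ∧ ∃ v : Fin N → (Rn (2 * (r + 1) + 2) → ℝ),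
        LinearIndependent ℝ v ∧ ∀ i, v i ∈ g.harm k := by
  obtain ⟨x, h, c, hx, hh, hhx, hxh, hc, hk⟩ := count_all hr
  refine ⟨c, hc, ?_⟩
  filter_upwards [hk] with k hk
  obtain ⟨Dm, θ, hcount, htot⟩ := hk
  obtain ⟨g, hg, hR, v, hv, hvh⟩ := B5.final_k (m := r + 1) (by omega)
    (B5.algOut (by omega)) (B5.eigOut (r + 1) (by omega)) hx hh hhx hxh hcount le_rfl
  exact ⟨g, hg, hR, _, htot, v, hv, hvh⟩

theorem allEven (n : ℕ) (hn : Even n) (h12 : 12 ≤ n) : ∃ c : ℝ, 0 < c ∧ ∃ k₀ : ℕ, ∀ k : ℕ,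
    k₀ ≤ k → ∃ g : RMetric n, g.Complete ∧ g.RicciNonneg ∧ ∃ N : ℕ,
      (1 + c) * (((n + k - 1).choose k + (n + k - 2).choose (k - 1) : ℕ) : ℝ) < N ∧
      ∃ v : Fin N → (Rn n → ℝ), LinearIndependent ℝ v ∧ ∀ i, v i ∈ g.harm k := by
  obtain ⟨j, hj⟩ := hn
  obtain ⟨r, rfl⟩ : ∃ r, n = 2 * (r + 1) + 2 := ⟨j - 2, by omega⟩
  obtain ⟨c, hc, h⟩ := main (r := r) (by omega)
  obtain ⟨k₀, hk₀⟩ := eventually_atTop.1 h
  refine ⟨c, hc, k₀, fun k hk => ?_⟩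
  have e1 : 2 * (r + 1) + 2 + k - 1 = 2 * (r + 1) + 1 + k := by omega
  have e2 : 2 * (r + 1) + 2 + k - 2 = 2 * (r + 1) + k := by omega
  rw [e1, e2]
  exact hk₀ k hk

end Vale.Agent.P225.AE
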