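import Vale.Agent.P225.AE.Key

open MeasureTheory intervalIntegral Set Filter Topology

namespace Vale.Agent.P225.AE

/-- lower bound for `e (1-t²)^r` -/
noncomputable def q (r : ℕ) (c a t : ℝ) : ℝ :=
  (1 / (2 * r + 3)) * ((1 - t ^ 2) ^ r + 2 * c * (t * (1 - t ^ 2) ^ (r + 1) * (a + t)) -
    c ^ 2 * (t * (1 - t ^ 2) * (a + t) ^ 2 * F r t))

theorem q_cont (r : ℕ) (c a : ℝ) : Continuous (q r c a) := by
  have := F_cont r
  unfold q
  fun_prop

theorem q_le (r : ℕ) (c a : ℝ) {t : ℝ} (h0 : 0 ≤ t) (h1 : t < 1) :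
    q r c a t ≤ e r t * (1 - t ^ 2) ^ r := by
  have hF := F_pos r h0 h1
  have h3 : (0:ℝ) < 2 * r + 3 := by positivity
  have hG : G r t = (F r t + t * (1 - t ^ 2) ^ (r + 1)) / (2 * r + 3) := by
    rw [eq_div_iff h3.ne', mul_comm]; exact G_eq r t
  have h4 : 0 ≤ t * (1 - t ^ 2) := mul_nonneg h0 (by nlinarith)
  have h5 : 0 ≤ t * (1 - t ^ 2) * ((1 - t ^ 2) ^ r - c * (a + t) * F r t) ^ 2 :=
    mul_nonneg h4 (sq_nonneg _)
  have h6 : e r t * (1 - t ^ 2) ^ r - q r c a t =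
      t * (1 - t ^ 2) * ((1 - t ^ 2) ^ r - c * (a + t) * F r t) ^ 2 / ((2 * r + 3) * F r t) := by
    unfold e q
    rw [hG]
    field_simp
    ring
  have h7 : 0 ≤ e r t * (1 - t ^ 2) ^ r - q r c a t := by
    rw [h6]
    positivity
  linarith

theorem integral_q (r : ℕ) (c a : ℝ) : ∫ t in (0:ℝ)..1, q r c a t = (1 / (2 * r + 3)) *
    (F r 0 + 2 * c * (a * M 1 (r + 1) + M 2 (r + 1)) - c ^ 2 *
      (a ^ 2 * (M 2 r / 2 - M 4 r / 4) + 2 * a * (M 3 r / 3 - M 5 r / 5) +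
        (M 4 r / 4 - M 6 r / 6))) := by
  unfold q
  have hFc := F_cont r
  have c1 : IntervalIntegrable (fun t : ℝ => t * (1 - t ^ 2) ^ (r + 1) * (a + t)) volume 0 1 :=
    Continuous.intervalIntegrable (by fun_prop) _ _
  have c2 : IntervalIntegrable (fun t : ℝ => t * (1 - t ^ 2) * (a + t) ^ 2 * F r t) volume 0 1 :=
    Continuous.intervalIntegrable (by fun_prop) _ _
  rw [intervalIntegral.integral_const_mul, intervalIntegral.integral_sub
    ((int_f r 0 1).add (c1.const_mul _)) (c2.const_mul _),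
    intervalIntegral.integral_add (int_f r 0 1) (c1.const_mul _),
    intervalIntegral.integral_const_mul, intervalIntegral.integral_const_mul, I1_eq, I2_eq]
  rfl

/-- the key inequality -/
theorem key {r : ℕ} (hr : 4 ≤ r) : ∃ c a : ℝ, F r 0 / (r + 1) < ∫ t in (0:ℝ)..1, q r c a t := by
  obtain ⟨y, rfl⟩ : ∃ y, r = y + 4 := ⟨r - 4, by omega⟩
  set r := y + 4 with hrdef
  have hφ := F0_pos r
  set φ := F r 0 with hφdef
  have hry : (r : ℝ) = y + 4 := by rw [hrdef]; push_cast; ring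
  have hy0 : (0:ℝ) ≤ y := Nat.cast_nonneg y
  have hsq := F0_sq_le hr
  rw [← hφdef, hry] at hsq
  have hmain := rat_ineq y (φ ^ 2) hy0 (by linarith)
  set A : ℝ := 1 / 4 * (1 / (2 * (y + 6))) + (2 * y + 10) / ((2 * y + 11) * (2 * y + 13)) with hA
  set B : ℝ := (1 / 4) ^ 2 * φ ^ 2 * (1 / (2 * (2 * (y:ℝ) + 11)) -
        3 / (4 * ((2 * y + 11) * (2 * y + 13)))) +
      2 * (1 / 4) * (1 / (6 * ((y:ℝ) + 5) * (y + 6)) - 1 / (5 * (((y:ℝ) + 5) * (y + 6) * (y + 7)))) +
      (3 / (4 * ((2 * y + 11) * (2 * y + 13))) -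
        15 / (6 * ((2 * y + 11) * (2 * y + 13) * (2 * y + 15)))) with hB
  have hBpos : 0 < B := by
    have b1 : 0 ≤ 1 / (2 * (2 * (y:ℝ) + 11)) - 3 / (4 * ((2 * y + 11) * (2 * y + 13))) := by
      rw [div_sub_div _ _ (by positivity) (by positivity)]
      apply div_nonneg _ (by positivity)
      nlinarith
    have b2 : 0 ≤ 1 / (6 * ((y:ℝ) + 5) * (y + 6)) - 1 / (5 * (((y:ℝ) + 5) * (y + 6) * (y + 7))) := by
      rw [div_sub_div _ _ (by positivity) (by positivity)]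
      apply div_nonneg _ (by positivity)
      have : 0 ≤ ((y:ℝ) + 5) * (y + 6) := by positivity
      nlinarith
    have b3 : 0 < 3 / (4 * ((2 * (y:ℝ) + 11) * (2 * y + 13))) -
        15 / (6 * ((2 * y + 11) * (2 * y + 13) * (2 * y + 15))) := by
      rw [div_sub_div _ _ (by positivity) (by positivity)]
      apply div_pos _ (by positivity)
      have : 0 < (2 * (y:ℝ) + 11) * (2 * y + 13) := by positivity
      nlinarith
    rw [hB]
    have : 0 ≤ (1 / 4 : ℝ) ^ 2 * φ ^ 2 := by positivity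
    have := mul_nonneg this b1
    linarith
  have hI1 : φ / 4 * M 1 (r + 1) + M 2 (r + 1) = φ * A := by
    rw [M_one, M2', F0_rec, ← hφdef, hA]
    push_cast
    rw [hry]
    field_simp
    ring
  have hI2 : (φ / 4) ^ 2 * (M 2 r / 2 - M 4 r / 4) + 2 * (φ / 4) * (M 3 r / 3 - M 5 r / 5) +
        (M 4 r / 4 - M 6 r / 6) = φ * B := by
    rw [M2', M4, M3, M5, M6, ← hφdef, hB, hry]
    field_simp
    ring
  refine ⟨A / B, φ / 4, ?_⟩
  rw [integral_q, hI1, hI2, ← hφdef]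
  have e1 : 2 * (A / B) * (φ * A) - (A / B) ^ 2 * (φ * B) = φ * (A ^ 2 / B) := by
    field_simp
    ring
  have e2 : φ + 2 * (A / B) * (φ * A) - (A / B) ^ 2 * (φ * B) = φ * (1 + A ^ 2 / B) := by
    linear_combination e1
  rw [e2]
  have h5 : ((y:ℝ) + 6) / (y + 5) < A ^ 2 / B := by
    rw [lt_div_iff₀ hBpos]
    exact hmain
  rw [hry]
  have h6 : 1 / (((y:ℝ) + 4) + 1) = 1 / (2 * (y + 4) + 3) * (1 + (y + 6) / (y + 5)) := by
    field_simp
    ring
  have h7 : (0:ℝ) < 1 / (2 * ((y:ℝ) + 4) + 3) := by positivity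
  calc φ / ((y:ℝ) + 4 + 1) = φ * (1 / (((y:ℝ) + 4) + 1)) := by ring
    _ = φ * (1 / (2 * (y + 4) + 3) * (1 + (y + 6) / (y + 5))) := by rw [h6]
    _ < φ * (1 / (2 * (y + 4) + 3) * (1 + A ^ 2 / B)) := by
        apply mul_lt_mul_of_pos_left _ hφ
        apply mul_lt_mul_of_pos_left _ h7
        linarith
    _ = 1 / (2 * ((y:ℝ) + 4) + 3) * (φ * (1 + A ^ 2 / B)) := by ring

/-- one cell -/
theorem cell (r : ℕ) (c a : ℝ) {s t : ℝ} (h0 : 0 ≤ s) (hst : s ≤ t) (h1 : t < 1) :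
    ∫ u in s..t, q r c a u ≤ e r t * (F r s - F r t) := by
  rw [F_sub, ← intervalIntegral.integral_const_mul]
  apply integral_mono_on hst ((q_cont r c a).intervalIntegrable _ _) ((int_f r _ _).const_mul _)
  intro u hu
  have hu0 := h0.trans hu.1
  have hu1 := lt_of_le_of_lt hu.2 h1
  exact (q_le r c a hu0 hu1).trans (mul_le_mul_of_nonneg_right (e_mono r hu0 hu.2 h1)
    (f_nonneg r hu0 hu1.le))

/-- A finite partition for which the lower sum is large. -/
theorem exists_partition {r : ℕ} (hr : 4 ≤ r) : ∃ (J : ℕ) (t : ℕ → ℝ), t 0 = 0 ∧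
    (∀ j, 0 ≤ t j) ∧ (∀ j, t j ≤ t (j + 1)) ∧ (∀ j ≤ J, t j < 1) ∧
    F r 0 / (r + 1) < ∑ j ∈ Finset.range J, e r (t j) * (F r (t j) - F r (t (j + 1))) +
      e r (t J) * F r (t J) := by
  obtain ⟨c, a, hca⟩ := key hr
  -- choice of `τ`
  have hcont : Continuous fun x : ℝ => ∫ t in (0:ℝ)..x, q r c a t :=
    intervalIntegral.continuous_primitive (fun a' b' => (q_cont r c a).intervalIntegrable a' b') 0
  have hev : ∀ᶠ x in 𝓝 (1:ℝ), F r 0 / (r + 1) < ∫ t in (0:ℝ)..x, q r c a t :=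
    hcont.continuousAt.eventually (lt_mem_nhds hca)
  have hev2 : ∀ᶠ x in 𝓝[<] (1:ℝ), F r 0 / (r + 1) < (∫ t in (0:ℝ)..x, q r c a t) ∧ 0 < x ∧ x < 1 := by
    filter_upwards [hev.filter_mono nhdsWithin_le_nhds, self_mem_nhdsWithin,
      (eventually_gt_nhds (show (0:ℝ) < 1 by norm_num)).filter_mono nhdsWithin_le_nhds] with x h1 h2 h3
    exact ⟨h1, h3, h2⟩
  obtain ⟨τ, hτ, hτ0, hτ1⟩ := hev2.exists
  set δ := (∫ t in (0:ℝ)..τ, q r c a t) - F r 0 / (r + 1) with hδ
  have hδ0 : 0 < δ := by rw [hδ]; linarith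
  obtain ⟨J, hJ⟩ := exists_nat_gt (1 / δ)
  have hJ0 : (0:ℝ) < J := lt_trans (by positivity) hJ
  have hJδ : 1 / (J:ℝ) < δ := by
    rw [div_lt_iff₀ hδ0] at hJ
    rw [div_lt_iff₀ hJ0]
    linarith
  let t : ℕ → ℝ := fun j => j * τ / J
  have ht0 : t 0 = 0 := by simp [t]
  have htJ : t J = τ := by simp only [t]; field_simp
  have htn : ∀ j, 0 ≤ t j := fun j => by simp only [t]; positivity
  have htm : ∀ j, t j ≤ t (j + 1) := fun j => by
    simp only [t]
    push_cast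
    apply div_le_div_of_nonneg_right _ hJ0.le
    nlinarith
  have htd : ∀ j, t (j + 1) - t j = τ / J := fun j => by
    simp only [t]
    push_cast
    field_simp
    ring
  have hmono : Monotone t := monotone_nat_of_le_succ htm
  have ht1 : ∀ j ≤ J, t j < 1 := fun j hj => (hmono hj).trans_lt (htJ ▸ hτ1)
  refine ⟨J, t, ht0, htn, htm, ht1, ?_⟩
  -- the integral is at most the upper sum
  have hup : ∫ u in (0:ℝ)..τ, q r c a u ≤
      ∑ j ∈ Finset.range J, e r (t (j + 1)) * (F r (t j) - F r (t (j + 1))) := by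
    rw [← ht0, ← htJ, ← intervalIntegral.sum_integral_adjacent_intervals
      (fun j _ => (q_cont r c a).intervalIntegrable _ _)]
    exact Finset.sum_le_sum fun j hj => cell r c a (htn j) (htm j) (ht1 _ (Finset.mem_range.1 hj))
  -- upper sum minus lower sum
  have hdiff : ∑ j ∈ Finset.range J, (e r (t (j + 1)) - e r (t j)) * (F r (t j) - F r (t (j + 1))) ≤
      1 / J := by
    have h1 : ∀ j ∈ Finset.range J, (e r (t (j + 1)) - e r (t j)) * (F r (t j) - F r (t (j + 1))) ≤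
        (e r (t (j + 1)) - e r (t j)) * (1 / J) := by
      intro j hj
      have hj1 := ht1 _ (Finset.mem_range.1 hj)
      apply mul_le_mul_of_nonneg_left _ (by linarith [e_mono r (htn j) (htm j) hj1])
      rw [F_sub]
      calc ∫ u in (t j)..(t (j + 1)), (1 - u ^ 2) ^ r ≤ ∫ u in (t j)..(t (j + 1)), (1:ℝ) := by
            apply integral_mono_on (htm j) (int_f r _ _) (by simp)
            intro u hu
            exact f_le_one r ((htn j).trans hu.1) (hu.2.trans hj1.le)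
        _ = τ / J := by rw [intervalIntegral.integral_const, smul_eq_mul, mul_one, htd]
        _ ≤ 1 / J := div_le_div_of_nonneg_right hτ1.le hJ0.le
    refine (Finset.sum_le_sum h1).trans ?_
    rw [← Finset.sum_mul, Finset.sum_range_sub (fun j => e r (t j))]
    have h2 : e r (t J) ≤ 1 := e_le_one r (htn J) (ht1 J le_rfl)
    have h3 : 0 ≤ e r (t 0) := e_nonneg r (htn 0) (by rw [ht0]; norm_num)
    have h4 : (0:ℝ) ≤ 1 / J := by positivity
    nlinarith
  have hsum : ∑ j ∈ Finset.range J, e r (t (j + 1)) * (F r (t j) - F r (t (j + 1))) =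
      ∑ j ∈ Finset.range J, e r (t j) * (F r (t j) - F r (t (j + 1))) +
      ∑ j ∈ Finset.range J, (e r (t (j + 1)) - e r (t j)) * (F r (t j) - F r (t (j + 1))) := by
    rw [← Finset.sum_add_distrib]
    exact Finset.sum_congr rfl fun j _ => by ring
  have hlast : 0 ≤ e r (t J) * F r (t J) :=
    mul_nonneg (e_nonneg r (htn J) (ht1 J le_rfl).le) (F_nonneg r (htn J) (ht1 J le_rfl).le)
  rw [hsum] at hup
  linarith

end Vale.Agent.P225.AE
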