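import Vale.Agent.P225.AE.Cond

open Filter Topology

namespace Vale.Agent.P225.AE

/-- index of the block containing `d` -/
theorem jd_ex (J : ℕ) (X : ℕ → ℕ) (d : ℕ) : ∃ j, J ≤ j ∨ d ≤ X j := ⟨J, Or.inl le_rfl⟩

open Classical in
/-- index of the block containing `d` -/
noncomputable def jd (J : ℕ) (X : ℕ → ℕ) (d : ℕ) : ℕ := Nat.find (jd_ex J X d)

theorem jd_le (J : ℕ) (X : ℕ → ℕ) (d : ℕ) : jd J X d ≤ J := Nat.find_min' _ (Or.inl le_rfl)

theorem le_X_jd {J : ℕ} {X : ℕ → ℕ} {d : ℕ} (hd : d ≤ X J) : d ≤ X (jd J X d) := by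
  classical
  have h := Nat.find_spec (jd_ex J X d)
  rcases h with h | h
  · have : jd J X d = J := le_antisymm (jd_le J X d) h
    rw [this]; exact hd
  · exact h

theorem jd_le_iff {J : ℕ} {X : ℕ → ℕ} (hX : ∀ j < J, X j ≤ X (j + 1)) {d i : ℕ} (hi : i < J) :
    jd J X d ≤ i ↔ d ≤ X i := by
  classical
  have hmono : ∀ i j, i ≤ j → j ≤ J → X i ≤ X j := by
    intro i j hij
    induction j, hij using Nat.le_induction with
    | base => intro _; exact le_rfl
    | succ j hij ih => intro hj; exact (ih (by omega)).trans (hX j (by omega))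
  constructor
  · intro h
    have h1 := Nat.find_spec (jd_ex J X d)
    rcases h1 with h1 | h1
    · exact absurd (h1.trans h) (by omega)
    · exact h1.trans (hmono _ _ h hi.le)
  · intro h
    exact Nat.find_min' _ (Or.inr h)

theorem tele (f : ℕ → ℝ) {j0 J : ℕ} (h : j0 ≤ J) :
    f j0 = f J + ∑ i ∈ Finset.range J, (if j0 ≤ i then f i - f (i + 1) else 0) := by
  induction J, h using Nat.le_induction with
  | base =>
    rw [Finset.sum_eq_zero, add_zero]
    intro i hi
    rw [if_neg (by have := Finset.mem_range.1 hi; omega)]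
  | succ J hJ ih =>
    rw [Finset.sum_range_succ, if_pos hJ, ih]
    ring

theorem total_eq {J : ℕ} {X : ℕ → ℕ} (hX : ∀ j < J, X j ≤ X (j + 1)) (f : ℕ → ℕ → ℝ) :
    ∑ d ∈ Finset.Icc 2 (X J), f (jd J X d) d =
      ∑ i ∈ Finset.range J, (∑ d ∈ Finset.Icc 2 (X i), f i d -
        ∑ d ∈ Finset.Icc 2 (X i), f (i + 1) d) + ∑ d ∈ Finset.Icc 2 (X J), f J d := by
  have hmono : ∀ i, i ≤ J → X i ≤ X J := by
    intro i hi
    have : ∀ j, i ≤ j → j ≤ J → X i ≤ X j := by
      intro j hij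
      induction j, hij using Nat.le_induction with
      | base => intro _; exact le_rfl
      | succ j hij ih => intro hj; exact (ih (by omega)).trans (hX j (by omega))
    exact this J hi le_rfl
  have h1 : ∀ d ∈ Finset.Icc 2 (X J), f (jd J X d) d = f J d +
      ∑ i ∈ Finset.range J, (if d ≤ X i then f i d - f (i + 1) d else 0) := by
    intro d _
    rw [tele (fun j => f j d) (jd_le J X d)]
    congr 1
    refine Finset.sum_congr rfl fun i hi => ?_
    have hi' := Finset.mem_range.1 hi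
    by_cases h : d ≤ X i
    · rw [if_pos h, if_pos ((jd_le_iff hX hi').2 h)]
    · rw [if_neg h, if_neg (fun h' => h ((jd_le_iff hX hi').1 h'))]
  rw [Finset.sum_congr rfl h1, Finset.sum_add_distrib, Finset.sum_comm, add_comm]
  congr 1
  refine Finset.sum_congr rfl fun i hi => ?_
  have hi' := Finset.mem_range.1 hi
  rw [← Finset.sum_filter, ← Finset.sum_sub_distrib]
  have h2 : (Finset.Icc 2 (X J)).filter (fun d => d ≤ X i) = Finset.Icc 2 (X i) := by
    ext d
    simp only [Finset.mem_filter, Finset.mem_Icc]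
    have := hmono i hi'.le
    omega
  rw [h2]

/-- the count functional -/
noncomputable def cnt {r : ℕ} (S : StaticData r) : ℝ :=
  ∑ j ∈ Finset.range S.J, S.s j ^ (2 * r + 3) * (F r (S.t j) - F r (S.t (j + 1))) +
      S.s S.J ^ (2 * r + 3) * F r (S.t S.J)

/-- block ends -/
noncomputable def Xk {r : ℕ} (S : StaticData r) (k j : ℕ) : ℕ := ⌊S.s j * k⌋₊

theorem Xk_mono {r : ℕ} (S : StaticData r) (k : ℕ) : ∀ j < S.J, Xk S k j ≤ Xk S k (j + 1) :=
  fun j hj => Nat.floor_le_floor (mul_le_mul_of_nonneg_right (S.sm j hj) (Nat.cast_nonneg k))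

/-- total number of states -/
theorem total_tendsto {r : ℕ} (S : StaticData r) :
    Tendsto (fun k : ℕ => (∑ d ∈ Finset.Icc 2 (Xk S k S.J),
      (NN r (S.t (jd S.J (Xk S k) d)) d : ℝ)) / (k:ℝ) ^ (2 * r + 3)) atTop
      (𝓝 (Cc r / (2 * r + 3) * cnt S)) := by
  have hone : ∀ i j, i ≤ S.J → j ≤ S.J → Tendsto (fun k : ℕ =>
      (∑ d ∈ Finset.Icc 2 (Xk S k i), (NN r (S.t j) d : ℝ)) / (k:ℝ) ^ (2 * r + 3)) atTop
      (𝓝 (Cc r * F r (S.t j) / (2 * r + 3) * S.s i ^ (2 * r + 3))) := by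
    intro i j hi hj
    have h := cesaro_floor (S.s0 i hi) (NN_tendsto r (S.tn j) (S.t1 j hj))
    have e1 : (((2 * r + 2 : ℕ) : ℝ) + 1) = 2 * r + 3 := by push_cast; ring
    rw [e1] at h
    exact h
  have hsum := (tendsto_finsetSum (Finset.range S.J) (f := fun i (k : ℕ) =>
    (∑ d ∈ Finset.Icc 2 (Xk S k i), (NN r (S.t i) d : ℝ)) / (k:ℝ) ^ (2 * r + 3) -
      (∑ d ∈ Finset.Icc 2 (Xk S k i), (NN r (S.t (i + 1)) d : ℝ)) / (k:ℝ) ^ (2 * r + 3))
    fun i hi => (hone i i (Finset.mem_range.1 hi).le (Finset.mem_range.1 hi).le).sub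
      (hone i (i + 1) (Finset.mem_range.1 hi).le (Finset.mem_range.1 hi))).add
    (hone S.J S.J le_rfl le_rfl)
  have e1 : ∑ i ∈ Finset.range S.J, (Cc r * F r (S.t i) / (2 * r + 3) * S.s i ^ (2 * r + 3) -
      Cc r * F r (S.t (i + 1)) / (2 * r + 3) * S.s i ^ (2 * r + 3)) +
      Cc r * F r (S.t S.J) / (2 * r + 3) * S.s S.J ^ (2 * r + 3) =
      Cc r / (2 * r + 3) * cnt S := by
    unfold cnt
    rw [mul_add, Finset.mul_sum]
    congr 1
    · exact Finset.sum_congr rfl fun i _ => by ring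
    · ring
  rw [e1] at hsum
  refine hsum.congr fun k => ?_
  rw [total_eq (Xk_mono S k) (fun j d => (NN r (S.t j) d : ℝ)), add_div]
  congr 1
  rw [Finset.sum_div]
  refine Finset.sum_congr rfl fun i _ => ?_
  rw [sub_div]

end Vale.Agent.P225.AE
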